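import Vale.Agent.P166.Haar2.Upper.Key
import Vale.Agent.P157.Full.UpperMain.Main
import Vale.Agent.P157.Full.InitCube

/-!
The upper bound: the maximum of the objective grows in the factor multiplying the atoms at most at
the rate of the energy functional at the trial path.
-/

noncomputable section

open MeasureTheory ProbabilityTheory Filter
open scoped BigOperators Topology

namespace Vale.Agent.P166.Haar2.Upper

open Vale.Agent.P157 (gam)
open Vale.Agent.P157.Parisi (Cube Path IsPath scale)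
open Vale.Agent.P157.Parisi.Full (tailSum slotVar slotMax slotVar_pos slotVar_le_one cubePts slots_few
  slotFree_empty logPartS_zero)
open Vale.Agent.P168 (cascFilter)
open Vale.Agent.P168.Cascade (Exps)
open Vale.Agent.P168.Limit (logZ gav rav)
open Vale.Agent.P168.Upper (cascFilter_neBot)
open Vale.Agent.P157.Parisi.Up (svar)

variable {N K r T : ℕ}

/-- The free energy over the uniform base without perturbation is the mean pressure. -/
theorem free_plain (hN : 0 < N) (b : Fin (K + 1) → ℝ) (w : Fin N → Fin (K + 1)) (s : ℝ) :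
    (stdSys b w).free s (fun _ : Fin N => 0) (unifBase N) =
      N * meanP 1 (fun i => b (w i)) := by
  set P := stdSys b w
  have hi := integrable_logZ P s (fun _ : Fin N => (0 : ℝ)) (unifBase N)
  have hz : ∀ z : Dz (K + 2) N (unifBase N), logZ (P.ham s (fun _ : Fin N => 0) (unifBase N) z) =
      N * pressure 1 (fun i => b (w i)) z.1 := by
    intro z
    have hNr : (N : ℝ) ≠ 0 := by exact_mod_cast hN.ne'
    have e : ∀ σ, P.ham s (fun _ : Fin N => 0) (unifBase N) z σ =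
        -(N * Real.log 2) + 1 / 2 * en (fun i => b (w i)) z.1 σ := fun σ => by
      simp [P, Sys.ham, Sys.ham0, Sys.pert, unifBase, stdSys, en_eq, rot]
    rw [pressure_eq, mul_div_cancel₀ _ hNr, part, logZ]
    simp only [e, Real.exp_add, ← Finset.mul_sum]
    rw [Real.log_mul (Real.exp_pos _).ne' (Finset.sum_pos (fun σ _ => Real.exp_pos _)
      Finset.univ_nonempty).ne', Real.log_exp, Real.log_pow]
    ring
  unfold Sys.free meanP
  simp only [hz]
  rw [dzLaw, integral_fun_fst (fun U : OG N => (N : ℝ) * pressure 1 (fun i => b (w i)) U),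
    probReal_univ, one_smul, integral_const_mul]

/-- One step in the factor of the atoms. -/
theorem sfree_step (hTr : SlotTruncStmt) (hN : 0 < N) {m : Fin r → ℝ} (hm : Exps m) {δ a : ℝ}
    (hδ : 0 ≤ δ) (ha : 0 ≤ a) (A : Atoms K) (w : Fin N → Fin (K + 1)) (ks : Fin T → Fin (r + 1))
    (s : ℝ) (x : Fin N → ℝ) (y : Fin (K + 1) → ℝ) {t t' u : ℝ} (htt : t ≤ t')
    (hu : ∀ᶠ n in cascFilter r, ∑ k, A.a k *
      selfMean (atomsAt A t' N y) w s x (slotBase N δ a m ks n) k ≤ u) :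
    sfree w δ a m ks s (atomsAt A t' N y) x ≤
      sfree w δ a m ks s (atomsAt A t N y) x + N / 2 * ((t' - t) * u) := by
  have := cascFilter_neBot r
  refine le_of_tendsto_of_tendsto (lim_sfree hTr hN hm hδ ha ks _ x)
    ((lim_sfree hTr hN hm hδ ha ks _ x).add_const _) ?_
  filter_upwards [hu] with n hn
  have h := free_tangent hN (atomsAt A t N y) (atomsAt A t' N y) w s x (slotBase N δ a m ks n)
  have e : ∑ k, (atomsAt A t' N y k - atomsAt A t N y k) *
      selfMean (atomsAt A t' N y) w s x (slotBase N δ a m ks n) k =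
      (t' - t) * ∑ k, A.a k * selfMean (atomsAt A t' N y) w s x (slotBase N δ a m ks n) k := by
    rw [Finset.mul_sum]
    exact Finset.sum_congr rfl fun k _ => by simp only [atomsAt, shifted]; ring
  rw [e] at h
  have := mul_le_mul_of_nonneg_left (mul_le_mul_of_nonneg_left hn (sub_nonneg.2 htt))
    (show 0 ≤ (N : ℝ) / 2 by positivity)
  linarith

theorem small_terms (K : ℕ) {ε : ℝ} (hε : 0 < ε) :
    ∀ᶠ N : ℕ in atTop, 0 < N ∧ 2 * scale N ^ 2 ≤ N * ε ∧ 2 * scale N ^ 2 ≤ 2 * (N : ℝ) ∧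
      3 / 2 * ((K : ℝ) + 1) * eta N ≤ ε := by
  have h1 : Tendsto (fun N : ℕ => 2 * (N : ℝ) ^ (-(1 / 4 : ℝ))) atTop (𝓝 0) := by
    simpa using ((tendsto_rpow_neg_atTop (by norm_num : (0 : ℝ) < 1 / 4)).comp
      tendsto_natCast_atTop_atTop).const_mul 2
  have h2 : Tendsto (fun N : ℕ => 3 / 2 * ((K : ℝ) + 1) * eta N) atTop (𝓝 0) := by
    simpa using tendsto_eta.const_mul (3 / 2 * ((K : ℝ) + 1))
  filter_upwards [h1.eventually (eventually_le_nhds hε), h2.eventually (eventually_le_nhds hε),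
    eventually_gt_atTop 0] with N h1 h2 hN
  have hN1 : (1 : ℝ) ≤ N := by exact_mod_cast hN
  have e1 : scale N ^ 2 = N * (N : ℝ) ^ (-(1 / 4 : ℝ)) := by
    rw [Vale.Agent.P157.Parisi.Cavity.scale_sq, mul_comm,
      ← Real.rpow_add_one (by positivity : (N : ℝ) ≠ 0)]
    norm_num
  have h4 : (N : ℝ) ^ (-(1 / 4 : ℝ)) ≤ 1 :=
    Real.rpow_le_one_of_one_le_of_nonpos hN1 (by norm_num)
  refine ⟨hN, ?_, ?_, h2⟩
  · rw [e1, mul_left_comm]; exact mul_le_mul_of_nonneg_left h1 (by positivity)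
  · rw [e1, mul_left_comm]; nlinarith

theorem upper (hTr : SlotTruncStmt) (hS : SlotStepStmt) (hD : SlotDevStmt) (hSh : PertShapeStmt)
    (hSt : StructStmt) (hB : BlockFactsStmt) (hFA : FunAStmt) (hFT : FunTimeStmt) : UpperStmt := by
  intro K A Nf w hNf hfr v hv ε hε
  obtain ⟨r, m, q, hq, hvρ⟩ := hv
  have hm : Exps m := ⟨hq.pos, hq.lt_one, hq.strictMono⟩
  set S₀ : ℝ := v - A.funA m q with hS₀
  have hInit := Vale.Agent.P157.Parisi.Full.init_cube r m q hq S₀ fun ρ hρ => by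
    have := hvρ ρ hρ
    simp only [pairTerm, S₀] at this ⊢
    linarith
  obtain ⟨CT, hCT⟩ := hFT K A
  obtain ⟨M₀, hM₀⟩ := exists_nat_gt (8 * |CT| / ε)
  set M : ℕ := M₀ + 1
  have hMpos : (0 : ℝ) < M := by positivity
  have hMC : |CT| / M ≤ ε / 8 := by
    rw [div_le_div_iff₀ hMpos (by norm_num)]
    rw [div_lt_iff₀ hε] at hM₀
    have : (M₀ : ℝ) ≤ M := by exact_mod_cast Nat.le_succ M₀
    nlinarith [mul_le_mul_of_nonneg_right this hε.le]
  set tg : ℕ → ℝ := fun i => (i : ℝ) / M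
  have htg : ∀ i ≤ M, 0 ≤ tg i ∧ tg i ≤ 1 := fun i hi =>
    ⟨by simp only [tg]; positivity, div_le_one_of_le₀ (Nat.cast_le.2 hi) hMpos.le⟩
  have hkey : ∀ i : Fin M, ∃ e > 0, ∀ a η κ R : ℝ, 0 ≤ a → 0 < svar a → 0 < η → 0 ≤ κ →
      4 * κ + 2 * η ≤ e →
      ∀ᶠ j in atTop, ∀ (T : ℕ) (ks : Fin T → Fin (r + 1)) (x : Fin (Nf j) → ℝ)
        (y : Fin (K + 1) → ℝ),
        IsNear A (w j) (slotVar (Nf j)) a η m q (tg (i.val + 1)) (slotMax R (Nf j)) ks x y →
        T < slotMax R (Nf j) → slotVar (Nf j) * T ≤ R →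
        η * (svar a * slotVar (Nf j) * T) ≤ κ →
        ∀ᶠ n in cascFilter r, ∑ k, A.a k * selfMean (atomsAt A (tg (i.val + 1)) (Nf j) y) (w j)
            (scale (Nf j)) x (slotBase (Nf j) (slotVar (Nf j)) a m ks n) k ≤
          (∫ u in (0 : ℝ)..1, A.dpsi (tg (i.val + 1) * dfun m q u)) + ε / 8 := fun i =>
    key hS hTr hSh hD hSt hB hFA hFT A Nf w hNf hfr hq
      (by simp only [tg]; positivity) (htg _ i.2).2 (by positivity)
  choose es hes hk using hkey
  have : Nonempty (Fin M) := ⟨⟨0, Nat.succ_pos _⟩⟩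
  set e : ℝ := Finset.univ.inf' Finset.univ_nonempty es
  have he : 0 < e := (Finset.lt_inf'_iff _).2 fun i _ => hes i
  set B : ℝ := (∑ k, |A.a k|) / 2 + 3 / 2 * ((K : ℝ) + 1) with hBdef
  have hB0 : 0 ≤ B := by positivity
  set C1 : ℝ := |S₀| + 5 + 2 * B with hC1
  have hC10 : 0 < C1 := by positivity
  set η : ℝ := min (min 1 (ε / 8)) (min (e / 4) (e ^ 2 / (64 * C1)))
  have hη0 : 0 < η := by positivity
  have hη1 : η ≤ 1 := (min_le_left _ _).trans (min_le_left _ _)
  have hη8 : η ≤ ε / 8 := (min_le_left _ _).trans (min_le_right _ _)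
  have hηe : η ≤ e / 4 := (min_le_right _ _).trans (min_le_left _ _)
  set κ : ℝ := Real.sqrt (η * C1) with hκ
  have hκe : 4 * κ + 2 * η ≤ e := by
    have h1 : κ ≤ e / 8 := by
      rw [hκ, show e / 8 = Real.sqrt ((e / 8) ^ 2) by rw [Real.sqrt_sq (by positivity)]]
      refine Real.sqrt_le_sqrt ?_
      have := mul_le_mul_of_nonneg_right
        (((min_le_right _ _).trans (min_le_right _ _)) : η ≤ e ^ 2 / (64 * C1)) hC10.le
      refine this.trans (le_of_eq ?_)
      field_simp; ring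
    linarith
  set R : ℝ := 2 * (κ / η) + 2 with hR
  obtain ⟨a₀, ha₀⟩ := hInit η hη0 R
  obtain ⟨n₀, hn₀, hvar⟩ := ((tendsto_natCast_atTop_atTop.eventually (eventually_ge_atTop a₀)).and
    (Vale.Agent.P157.Parisi.Up.tendsto_svar.eventually
      (eventually_ge_nhds (by norm_num : (1 / 2 : ℝ) < 1)))).exists
  set a : ℝ := (n₀ : ℝ)
  have ha : 0 ≤ a := Nat.cast_nonneg _
  have hv0 : 0 < svar a := lt_of_lt_of_le one_half_pos hvar
  have hK : ∀ᶠ j in atTop, ∀ i : Fin M, ∀ (T : ℕ) (ks : Fin T → Fin (r + 1))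
      (x : Fin (Nf j) → ℝ) (y : Fin (K + 1) → ℝ),
      IsNear A (w j) (slotVar (Nf j)) a η m q (tg (i.val + 1)) (slotMax R (Nf j)) ks x y →
      T < slotMax R (Nf j) → slotVar (Nf j) * T ≤ R →
      η * (svar a * slotVar (Nf j) * T) ≤ κ →
      ∀ᶠ n in cascFilter r, ∑ k, A.a k * selfMean (atomsAt A (tg (i.val + 1)) (Nf j) y) (w j)
          (scale (Nf j)) x (slotBase (Nf j) (slotVar (Nf j)) a m ks n) k ≤
        (∫ u in (0 : ℝ)..1, A.dpsi (tg (i.val + 1) * dfun m q u)) + ε / 8 :=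
    eventually_all.2 fun i => hk i a η κ R ha hv0 hη0 (Real.sqrt_nonneg _)
      (hκe.trans (Finset.inf'_le _ (Finset.mem_univ i)))
  filter_upwards [hNf.eventually (ha₀ a hn₀), hK, hNf.eventually (small_terms K (show 0 < ε / 8 by positivity)),
    (tendsto_natCast_atTop_atTop.comp hNf).eventually
      (eventually_ge_atTop (8 * ((M : ℝ) + 2) / ε))] with j hI hKj hsm hMN
  set N := Nf j
  obtain ⟨hN, hs8, hs2, he8⟩ := hsm
  have hNR : (0 : ℝ) < N := Nat.cast_pos.2 hN
  have hMε : (M : ℝ) + 2 ≤ N * (ε / 8) := by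
    simp only [Function.comp_apply, div_le_iff₀ hε] at hMN
    linarith
  set s : ℝ := scale N
  set δ : ℝ := slotVar N
  have hδ : 0 < δ := slotVar_pos N
  set Tm : ℕ := slotMax R N
  set d : ℝ := svar a * δ with hd
  have hd0 : 0 < d := mul_pos hv0 hδ
  have hR0 : 0 ≤ R := by positivity
  have hfloor : ∀ T ≤ Tm, δ * (T : ℝ) ≤ R := fun T hT => by
    have h := (Nat.cast_le (α := ℝ)).2 hT
    have h' := Nat.floor_le (a := R / δ) (div_nonneg hR0 hδ.le)
    rw [le_div_iff₀ hδ] at h'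
    calc δ * (T : ℝ) ≤ δ * (Tm : ℝ) := mul_le_mul_of_nonneg_left h hδ.le
      _ ≤ R := by rw [mul_comm]; exact h'
  have htol : tol K N ≤ 1 := (tol_le K).2.1
  -- the start with any slots, atoms and strengths
  have start : ∀ (T : ℕ) (ks : Fin T → Fin (r + 1)) (x : Fin N → ℝ) (b : Fin (K + 1) → ℝ), T ≤ Tm →
      (∀ p, x p ∈ Set.Icc (0 : ℝ) 3) →
      sfree (w j) δ a m ks s b x + d / 2 * (N * ∑ u, (tailSum m q (ks u) - 1)) ≤
        N * (S₀ + η) + 2 * s ^ 2 + N / 2 * ∑ k, |b k| := by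
    intro T ks x b hT hx
    have h1 := ((sfree_pert (w := w j) (s := s) (L := N) hTr hSh hN hm hδ.le ha ks b).1 x).2
    have h2 := (abs_le.1 (sfree_atom_lip (w := w j) (s := s) hTr hN hm hδ.le ha ks (fun _ => 0) b
      (fun _ : Fin N => (0 : ℝ)))).2
    simp only [sub_zero] at h2
    rw [sfree_zero] at h2
    have h3 := hI T ks δ hδ.le (hfloor T hT)
    have h4 : ∑ p : Fin N, (coef (K + 2) p.val * x p) ^ 2 ≤ 3 := by
      calc ∑ p : Fin N, (coef (K + 2) p.val * x p) ^ 2
          ≤ ∑ p : Fin N, coef (K + 2) p.val ^ 2 * 9 := Finset.sum_le_sum fun p _ => by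
            rw [mul_pow]
            exact mul_le_mul_of_nonneg_left (by nlinarith [(hx p).1, (hx p).2]) (sq_nonneg _)
        _ ≤ 3 := by
            rw [← Finset.sum_mul]
            linarith [sum_coef_sq (K + 2) N]
    have h5 := mul_le_mul_of_nonneg_left h4 (show 0 ≤ s ^ 2 / 2 by positivity)
    linarith [sq_nonneg s]
  have hatoms : ∀ t, 0 ≤ t → t ≤ 1 → ∀ y : Fin (K + 1) → ℝ, (∀ k, y k ∈ Set.Icc (0 : ℝ) 3) →
      (N : ℝ) / 2 * ∑ k, |atomsAt A t N y k| ≤ N * B := by
    intro t ht ht1 y hy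
    have h : ∑ k, |atomsAt A t N y k| ≤ ∑ k, (|A.a k| + 3) := Finset.sum_le_sum fun k _ => by
      refine (abs_add_le _ _).trans (add_le_add ?_ ?_)
      · rw [abs_mul, abs_of_nonneg ht]; exact mul_le_of_le_one_left (abs_nonneg _) ht1
      · rw [abs_mul, abs_of_nonneg (eta_nonneg N), abs_of_nonneg (hy k).1]
        calc eta N * y k ≤ 1 * 3 :=
              mul_le_mul (eta_mem hN).2.1 (hy k).2 (hy k).1 zero_le_one
          _ = 3 := one_mul 3
    rw [Finset.sum_add_distrib, Finset.sum_const, Finset.card_univ, Fintype.card_fin,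
      nsmul_eq_mul] at h
    push_cast at h
    have := mul_le_mul_of_nonneg_left h (show 0 ≤ (N : ℝ) / 2 by positivity)
    simp only [B]
    linarith
  -- the nearly maximal points
  have hex : ∀ i : ℕ, ∃ (T : ℕ) (ks : Fin T → Fin (r + 1)) (x : Fin N → ℝ) (y : Fin (K + 1) → ℝ),
      IsNear A (w j) δ a η m q (tg i) Tm ks x y := fun i =>
    exists_near hTr hSh hN hm hδ.le ha A η q (tg i) Tm
  choose T ks x y hnear using hex
  set V : ℕ → ℝ := fun i => obj A (w j) δ a η m q (tg i) (ks i) (x i) (y i)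
  set x₀ : Fin N → ℝ := fun _ => 3 / 2
  set y₀ : Fin (K + 1) → ℝ := fun _ => 3 / 2
  have hobj0 : ∀ i : ℕ, (stdSys (atomsAt A (tg i) N y₀) (w j)).free s x₀ (unifBase N) ≤
      V i + tol K N := by
    intro i
    have h := (hnear i).2 0 (fun u => u.elim0) x₀ y₀ (Nat.zero_le _)
      (fun _ => ⟨by norm_num [x₀], by norm_num [x₀]⟩) (fun _ => ⟨by norm_num [y₀], by norm_num [y₀]⟩)
    rw [← sfree_empty (w := w j) (δ := δ) (a := a) (s := s) hm _ x₀ fun u : Fin 0 => u.elim0]
    refine le_trans (le_of_eq ?_) h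
    simp [obj, x₀, y₀, pen, s, N]
  have base : ∀ i ≤ M, -((N : ℝ) * B) ≤ V i + tol K N := by
    intro i hi
    refine le_trans ?_ (hobj0 i)
    rw [← sfree_empty (w := w j) (δ := δ) (a := a) (s := s) hm _ x₀ fun u : Fin 0 => u.elim0]
    have h1 := ((sfree_pert (w := w j) (s := s) (L := N) hTr hSh hN hm hδ.le ha
      (fun u : Fin 0 => u.elim0) (atomsAt A (tg i) N y₀)).1 x₀).1
    have h2 := (abs_le.1 (sfree_atom_lip (w := w j) (s := s) hTr hN hm hδ.le ha
      (fun u : Fin 0 => u.elim0) (fun _ => 0) (atomsAt A (tg i) N y₀) (fun _ : Fin N => (0 : ℝ)))).1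
    simp only [sub_zero] at h2
    rw [sfree_zero, slotFree_empty _ δ a hm, logPartS_zero] at h2
    have h3 := hatoms (tg i) (htg i hi).1 (htg i hi).2 y₀ fun _ => ⟨by norm_num [y₀], by norm_num [y₀]⟩
    linarith
  -- few slots
  have hTi : ∀ i ≤ M, T i < Tm ∧ η * (d * T i) ≤ κ := by
    intro i hi
    obtain ⟨hT, hx, hy⟩ := (hnear i).1
    have h1 := base i hi
    have h2 := start _ (ks i) (x i) (atomsAt A (tg i) N (y i)) hT hx
    have h3 := hatoms (tg i) (htg i hi).1 (htg i hi).2 (y i) hy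
    have h5 := pen_nonneg (N := N) (x i) (y i)
    simp only [V, obj, ← hd] at h1
    have h7 : (N : ℝ) * (η * (d * T i) ^ 2) ≤ N * C1 := by
      have hS : (N : ℝ) * S₀ ≤ N * |S₀| := mul_le_mul_of_nonneg_left (le_abs_self _) hNR.le
      have hη' : (N : ℝ) * η ≤ N * 1 := mul_le_mul_of_nonneg_left hη1 hNR.le
      have hN1 : (1 : ℝ) ≤ N := by exact_mod_cast hN
      rw [hC1]
      linarith
    obtain ⟨h9, h10⟩ := slots_few (δ := δ) hNR hη0 hd0.le (Nat.cast_nonneg (T i))
      (by rw [hd]; linarith [mul_le_mul_of_nonneg_right hvar hδ.le]) (slotVar_le_one N) h7 hR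
    refine ⟨?_, h9⟩
    refine Nat.le_floor ?_
    rw [le_div_iff₀ hδ]
    push_cast
    linarith
  -- the growth
  set G : ℕ → ℝ := fun i => tg i / 2 * ∫ u in (0 : ℝ)..1, A.rA (tg i * dfun m q u)
  have step : ∀ i < M, V (i + 1) ≤
      V i + (N * (G (i + 1) - G i) + (N * (|CT| / M) + N * (ε / 16)) / M + 1) := by
    intro i hi
    obtain ⟨hT, hκ'⟩ := hTi (i + 1) hi
    obtain ⟨hTm, hx, hy⟩ := (hnear (i + 1)).1
    have hu := hKj ⟨i, hi⟩ _ (ks (i + 1)) (x (i + 1)) (y (i + 1)) (hnear (i + 1)) hT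
      (hfloor _ hTm) hκ'
    have htt : tg i ≤ tg (i + 1) := by
      simp only [tg]; push_cast
      exact div_le_div_of_nonneg_right (by linarith) hMpos.le
    have h2 := sfree_step hTr hN hm hδ.le ha A (w j) (ks (i + 1)) s (x (i + 1)) (y (i + 1)) htt hu
    have h3 := (hnear i).2 _ (ks (i + 1)) (x (i + 1)) (y (i + 1)) hTm hx hy
    obtain ⟨h4, -, -⟩ := hCT r m q hq (tg i) (tg (i + 1))
      (by simp only [tg]; positivity) (htg i hi.le).1 htt (htg _ hi).2
    have hdiff : tg (i + 1) - tg i = 1 / M := by simp only [tg]; push_cast; ring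
    have h5 : CT * (tg (i + 1) - tg i) ^ 2 ≤ |CT| / M / M := by
      rw [hdiff]
      refine (mul_le_mul_of_nonneg_right (le_abs_self CT) (sq_nonneg _)).trans (le_of_eq ?_)
      ring
    have h6 := mul_le_mul_of_nonneg_left (h4.trans (add_le_add le_rfl h5)) hNR.le
    have h7 : (N : ℝ) / 2 * ((tg (i + 1) - tg i) * (ε / 8)) = N * (ε / 16) / M := by
      rw [hdiff]; ring
    simp only [V, obj, G] at h3 ⊢
    rw [add_div]
    simp only at h2
    rw [mul_add, mul_add] at h2
    rw [mul_div_assoc (N : ℝ) (|CT| / M) M]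
    linarith
  have total : ∀ i ≤ M, V i ≤ V 0 + (N * (G i - G 0) +
      i * ((N * (|CT| / M) + N * (ε / 16)) / M + 1)) := by
    intro i
    induction i with
    | zero => simp
    | succ i ih =>
      intro hi
      have := ih (Nat.le_of_succ_le hi)
      have := step i hi
      push_cast
      linarith
  have hV0 : V 0 ≤ N * (S₀ + η) + 2 * s ^ 2 + N * (ε / 8) := by
    obtain ⟨hT, hx, hy⟩ := (hnear 0).1
    have h1 := start _ (ks 0) (x 0) (atomsAt A (tg 0) N (y 0)) hT hx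
    have h2 := pen_nonneg (N := N) (x 0) (y 0)
    have h3 : 0 ≤ (N : ℝ) * η * (d * T 0) ^ 2 := by positivity
    have h4 : ∑ k, |atomsAt A (tg 0) N (y 0) k| ≤ ∑ _k : Fin (K + 1), 3 * eta N :=
      Finset.sum_le_sum fun k _ => by
        simp only [tg, atomsAt, shifted, Nat.cast_zero, zero_div, zero_mul, zero_add, abs_mul,
          abs_of_nonneg (eta_nonneg N), abs_of_nonneg (hy k).1]
        rw [mul_comm]
        exact mul_le_mul_of_nonneg_right (hy k).2 (eta_nonneg N)
    rw [Finset.sum_const, Finset.card_univ, Fintype.card_fin, nsmul_eq_mul] at h4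
    push_cast at h4
    have h5 := mul_le_mul_of_nonneg_left h4 (show 0 ≤ (N : ℝ) / 2 by positivity)
    have h6 := mul_le_mul_of_nonneg_left he8 hNR.le
    simp only [V, obj, ← hd]
    linarith
  have hfin : (N : ℝ) * meanP 1 (fun i => A.a (w j i)) ≤ V M + tol K N := by
    refine le_trans ?_ (hobj0 M)
    rw [← free_plain hN A.a (w j) s,
      ← sfree_empty (w := w j) (δ := δ) (a := a) (s := s) hm _ _ fun u : Fin 0 => u.elim0,
      ← sfree_empty (w := w j) (δ := δ) (a := a) (s := s) hm _ _ fun u : Fin 0 => u.elim0]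
    refine (((sfree_pert (w := w j) (s := s) (L := N) hTr hSh hN hm hδ.le ha _ A.a).1 x₀).1).trans ?_
    refine sfree_atom_mono hTr hN hm hδ.le ha _ (fun k => ?_) x₀
    simp only [atomsAt, shifted, tg, div_self hMpos.ne', one_mul, y₀]
    exact le_add_of_nonneg_right (mul_nonneg (eta_nonneg N) (by norm_num))
  have hG0 : G 0 = 0 := by simp [G, tg]
  have hGM : G M = A.funA m q := by
    simp only [G, tg, div_self hMpos.ne', one_mul, Atoms.funA]
  have h5 := total M le_rfl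
  rw [hG0, hGM, sub_zero] at h5
  have e2 : (M : ℝ) * ((N * (|CT| / M) + N * (ε / 16)) / M + 1) =
      N * (|CT| / M) + N * (ε / 16) + M := by
    rw [mul_add, mul_div_cancel₀ _ hMpos.ne', mul_one]
  rw [e2] at h5
  refine le_of_mul_le_mul_left ?_ hNR
  have h8 : (N : ℝ) * η ≤ N * (ε / 8) := mul_le_mul_of_nonneg_left hη8 hNR.le
  have h9 := mul_le_mul_of_nonneg_left hMC hNR.le
  have hv' : (N : ℝ) * v = N * S₀ + N * A.funA m q := by rw [hS₀]; ring
  linarith [mul_pos hNR hε]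

end Vale.Agent.P166.Haar2.Upper
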