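import Vale.Agent.P166.Haar2.Statements
import Vale.Agent.P157.Full.UpperMain.Key

/-!
Elementary facts on the free energy for the upper bound: integrability, tangents in the atoms, and
their transport to the limit with slots.
-/

noncomputable section

open MeasureTheory ProbabilityTheory Filter
open scoped BigOperators Topology

namespace Vale.Agent.P166.Haar2.Upper

open Vale.Agent.P157 (gam)
open Vale.Agent.P157.Parisi (Cube scale sv unitVec)
open Vale.Agent.P157.Parisi.Full (cubePts slotW slotX slotLaw)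
open Vale.Agent.P168 (cascFilter)
open Vale.Agent.P168.Cascade (Exps)
open Vale.Agent.P168.Limit (logZ gav rav gw)
open Vale.Agent.P168.Upper (cascFilter_neBot)

instance {N G L : ℕ} (B : RBase N) : IsProbabilityMeasure (dzLaw G L B) := by
  unfold dzLaw; infer_instance

/-! ### Gibbs averages on a finite set -/

section Finite

variable {X : Type*} [Fintype X] [Nonempty X]

theorem sum_exp_pos (H : X → ℝ) : 0 < ∑ y, Real.exp (H y) :=
  Finset.sum_pos (fun _ _ => Real.exp_pos _) Finset.univ_nonempty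

theorem gw_nonneg (H : X → ℝ) (x : X) : 0 ≤ gw H x :=
  div_nonneg (Real.exp_pos _).le (sum_exp_pos H).le

theorem sum_gw (H : X → ℝ) : ∑ x, gw H x = 1 := by
  simp only [gw, ← Finset.sum_div]; exact div_self (sum_exp_pos H).ne'

theorem gav_abs_le (H f : X → ℝ) {C : ℝ} (hf : ∀ x, |f x| ≤ C) : |gav H f| ≤ C := by
  refine (Finset.abs_sum_le_sum_abs _ _).trans ?_
  calc ∑ x, |gw H x * f x| ≤ ∑ x, gw H x * C := Finset.sum_le_sum fun x _ => by
        rw [abs_mul, abs_of_nonneg (gw_nonneg H x)]
        exact mul_le_mul_of_nonneg_left (hf x) (gw_nonneg H x)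
    _ = C := by rw [← Finset.sum_mul, sum_gw, one_mul]

/-- The tangent of the logarithm of the partition function. -/
theorem logZ_tangent (H H' : X → ℝ) : logZ H' - logZ H ≤ gav H' (fun x => H' x - H x) := by
  have h' := sum_exp_pos H'
  have hd : ∑ x, gw H' x * Real.exp (H x - H' x) = (∑ y, Real.exp (H y)) / ∑ y, Real.exp (H' y) := by
    rw [Finset.sum_div]
    refine Finset.sum_congr rfl fun x _ => ?_
    rw [gw, Real.exp_sub]
    field_simp
  have hj : Real.exp (∑ x, gw H' x * (H x - H' x)) ≤ ∑ x, gw H' x * Real.exp (H x - H' x) := by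
    simpa [smul_eq_mul] using convexOn_exp.map_sum_le (t := Finset.univ) (w := gw H')
      (p := fun x => H x - H' x) (fun x _ => gw_nonneg H' x) (sum_gw H') (fun x _ => Set.mem_univ _)
  rw [hd, ← Real.le_log_iff_exp_le (div_pos (sum_exp_pos H) h'),
    Real.log_div (sum_exp_pos H).ne' h'.ne'] at hj
  have e : ∑ x, gw H' x * (H x - H' x) = -gav H' (fun x => H' x - H x) := by
    rw [gav, ← Finset.sum_neg_distrib]
    exact Finset.sum_congr rfl fun x _ => by ring
  rw [e] at hj
  unfold logZ
  linarith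

theorem abs_logZ_le (H : X → ℝ) :
    |logZ H| ≤ Real.log (Fintype.card X) + ∑ x, |H x| := by
  have h0 := sum_exp_pos H
  obtain ⟨x0⟩ := ‹Nonempty X›
  have h1 : Real.exp (H x0) ≤ ∑ y, Real.exp (H y) :=
    Finset.single_le_sum (f := fun y => Real.exp (H y)) (fun y _ => (Real.exp_pos _).le)
      (Finset.mem_univ x0)
  have hx : ∀ y, |H y| ≤ ∑ x, |H x| := fun y =>
    Finset.single_le_sum (f := fun x => |H x|) (fun x _ => abs_nonneg _) (Finset.mem_univ y)
  have h2 : ∑ y, Real.exp (H y) ≤ Fintype.card X * Real.exp (∑ x, |H x|) := by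
    refine (Finset.sum_le_sum fun y _ => Real.exp_le_exp.2
      ((le_abs_self _).trans (hx y))).trans (le_of_eq ?_)
    rw [Finset.sum_const, Finset.card_univ, nsmul_eq_mul]
  have hc : 0 ≤ Real.log (Fintype.card X) :=
    Real.log_natCast_nonneg _
  have hl := Real.log_le_log (Real.exp_pos _) h1
  rw [Real.log_exp] at hl
  have hu := Real.log_le_log h0 h2
  rw [Real.log_mul (by exact_mod_cast Fintype.card_ne_zero) (Real.exp_pos _).ne', Real.log_exp] at hu
  have hs : 0 ≤ ∑ x, |H x| := Finset.sum_nonneg fun x _ => abs_nonneg _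
  refine abs_le.2 ⟨?_, hu⟩
  have := neg_abs_le (H x0)
  have := hx x0
  show _ ≤ logZ H
  unfold logZ
  linarith

end Finite

/-! ### Overlaps of blocks -/

variable {N G L K : ℕ}

theorem continuous_rot (σ : Cube N) (i : Fin N) : Continuous fun U : OG N => rot U σ i :=
  (continuous_apply i).comp (continuous_act (spin σ))

theorem rot_sum (U : OG N) (σ τ : Cube N) :
    ∑ i, rot U σ i * rot U τ i = ∑ i, spin σ i * spin τ i := act_dot U (spin σ) (spin τ)

theorem stdSys_ov_master (a : Fin (K + 1) → ℝ) (w : Fin N → Fin (K + 1)) (U : OG N)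
    (σ τ : Cube N) :
    (stdSys a w).ov U 0 σ τ = Vale.Agent.P157.Parisi.overlap σ τ := by
  simp only [Sys.ov, stdSys, Fin.cons_zero, rot_sum]
  rfl

theorem stdSys_ov_block (a : Fin (K + 1) → ℝ) (w : Fin N → Fin (K + 1)) (U : OG N)
    (k : Fin (K + 1)) (σ τ : Cube N) :
    (stdSys a w).ov U k.succ σ τ =
      (∑ i ∈ Finset.univ.filter (fun i => w i = k), rot U σ i * rot U τ i) / N := by
  simp only [Sys.ov, stdSys, Fin.cons_succ]

theorem block_self (a : Fin (K + 1) → ℝ) (w : Fin N → Fin (K + 1)) (U : OG N)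
    (k : Fin (K + 1)) (σ : Cube N) :
    0 ≤ (stdSys a w).ov U k.succ σ σ ∧ (stdSys a w).ov U k.succ σ σ ≤ 1 := by
  rw [stdSys_ov_block]
  refine ⟨div_nonneg (Finset.sum_nonneg fun i _ => mul_self_nonneg _) N.cast_nonneg,
    div_le_one_of_le₀ ?_ N.cast_nonneg⟩
  refine (Finset.sum_le_sum_of_subset_of_nonneg (Finset.subset_univ _)
    fun i _ _ => mul_self_nonneg _).trans (le_of_eq ?_)
  rw [rot_sum]
  exact spin_dot σ

theorem energy_diff (a a' : Fin (K + 1) → ℝ) (w : Fin N → Fin (K + 1)) (hN : 0 < N) (U : OG N)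
    (σ : Cube N) :
    1 / 2 * (∑ i, a' (w i) * rot U σ i ^ 2) - 1 / 2 * (∑ i, a (w i) * rot U σ i ^ 2) =
      (N : ℝ) / 2 * ∑ k, (a' k - a k) * (stdSys a' w).ov U k.succ σ σ := by
  have hNr : (N : ℝ) ≠ 0 := by exact_mod_cast hN.ne'
  simp only [stdSys_ov_block]
  rw [← mul_sub, ← Finset.sum_sub_distrib,
    ← Finset.sum_fiberwise Finset.univ w fun i => a' (w i) * rot U σ i ^ 2 - a (w i) * rot U σ i ^ 2,
    Finset.mul_sum, Finset.mul_sum]
  refine Finset.sum_congr rfl fun k _ => ?_
  rw [Finset.mul_sum, Finset.sum_div, Finset.mul_sum, Finset.mul_sum]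
  refine Finset.sum_congr rfl fun i hi => ?_
  rw [(Finset.mem_filter.1 hi).2]
  field_simp

/-! ### Measurability and integrability -/

theorem continuous_feat (P : Sys N G) (σ : Cube N) (c : PIdx G N L) :
    Continuous fun U : OG N => P.feat U σ c := by
  unfold Sys.feat
  refine continuous_finsetProd _ fun p _ => ?_
  split_ifs
  · exact (continuous_rot σ _).div_const _
  · exact continuous_const

theorem measurable_ham (P : Sys N G) (s : ℝ) (x : Fin L → ℝ) (B : RBase N) (σ : Cube N) :
    Measurable fun z : Dz G L B => P.ham s x B z σ := by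
  have hU : Measurable fun z : Dz G L B => z.1 := measurable_fst
  have hJ : ∀ c, Measurable fun z : Dz G L B => z.2.1 c := fun c =>
    (measurable_pi_apply c).comp (measurable_fst.comp measurable_snd)
  refine ((B.meas σ).comp (measurable_snd.comp measurable_snd)).add ?_
  refine ((Finset.measurable_sum _ fun i _ => (((continuous_rot σ i).measurable.comp hU).pow_const 2
    |>.const_mul _)).const_mul _).add ?_
  exact Finset.measurable_sum _ fun c _ =>
    (hJ c).mul (((continuous_feat P σ c).measurable.comp hU).const_mul _)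

theorem exists_ham_bound (P : Sys N G) (s : ℝ) (x : Fin L → ℝ) (B : RBase N) :
    ∃ b : Dz G L B → ℝ, Integrable b (dzLaw G L B) ∧ ∀ z σ, |P.ham s x B z σ| ≤ b z := by
  obtain ⟨E, hE⟩ : ∃ E, ∀ (σ : Cube N) (U : OG N), |1 / 2 * ∑ i, P.lam i * rot U σ i ^ 2| ≤ E := by
    have h : ∀ σ : Cube N, ∃ E, ∀ U : OG N, |1 / 2 * ∑ i, P.lam i * rot U σ i ^ 2| ≤ E := fun σ => by
      obtain ⟨C, hC⟩ := isCompact_univ.exists_bound_of_continuousOn
        (f := fun U : OG N => 1 / 2 * ∑ i, P.lam i * rot U σ i ^ 2)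
        (by have := fun i => continuous_rot σ i; fun_prop : Continuous _).continuousOn
      exact ⟨C, fun U => hC U trivial⟩
    choose E hE using h
    exact ⟨∑ σ, |E σ|, fun σ U => (hE σ U).trans ((le_abs_self _).trans
      (Finset.single_le_sum (f := fun σ => |E σ|) (fun σ _ => abs_nonneg _) (Finset.mem_univ σ)))⟩
  obtain ⟨F, hF⟩ : ∃ F, ∀ (σ : Cube N) (c : PIdx G N L) (U : OG N),
      |s * x c.1 * coef G c.1.val * P.feat U σ c| ≤ F := by
    have h : ∀ p : Cube N × PIdx G N L, ∃ F, ∀ U : OG N,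
        |s * x p.2.1 * coef G p.2.1.val * P.feat U p.1 p.2| ≤ F := fun p => by
      obtain ⟨C, hC⟩ := isCompact_univ.exists_bound_of_continuousOn
        (f := fun U : OG N => s * x p.2.1 * coef G p.2.1.val * P.feat U p.1 p.2)
        ((continuous_feat P p.1 p.2).const_mul _).continuousOn
      exact ⟨C, fun U => hC U trivial⟩
    choose F hF using h
    exact ⟨∑ p, |F p|, fun σ c U => (hF (σ, c) U).trans ((le_abs_self _).trans
      (Finset.single_le_sum (f := fun p => |F p|) (fun p _ => abs_nonneg _)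
        (Finset.mem_univ (σ, c))))⟩
  refine ⟨fun z => B.bd + E + ∑ c, |z.2.1 c| * F, ?_, fun z σ => ?_⟩
  · refine (integrable_const _).add (integrable_finsetSum _ fun c _ => Integrable.mul_const ?_ F)
    have h1 : Integrable (fun J : PIdx G N L → ℝ => |J c|) (gam (PIdx G N L)) :=
      (((measurePreserving_eval (fun _ : PIdx G N L => gaussianReal 0 1) c).integrable_comp_of_integrable
        ((memLp_id_gaussianReal 1).integrable le_rfl))).abs
    exact (h1.comp_fst B.law).comp_snd (orthHaar N)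
  · refine (abs_add_le _ _).trans ?_
    show _ ≤ B.bd + E + ∑ c, |z.2.1 c| * F
    rw [add_assoc]
    refine add_le_add (B.le_bd _ σ) ((abs_add_le _ _).trans (add_le_add (hE σ z.1) ?_))
    refine (Finset.abs_sum_le_sum_abs _ _).trans (Finset.sum_le_sum fun c _ => ?_)
    rw [abs_mul]
    exact mul_le_mul_of_nonneg_left (hF σ c z.1) (abs_nonneg _)

theorem measurable_gw (P : Sys N G) (s : ℝ) (x : Fin L → ℝ) (B : RBase N) (σ : Cube N) :
    Measurable fun z : Dz G L B => gw (P.ham s x B z) σ :=
  (measurable_ham P s x B σ).exp.div (Finset.measurable_sum _ fun τ _ => (measurable_ham P s x B τ).exp)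

theorem integrable_logZ (P : Sys N G) (s : ℝ) (x : Fin L → ℝ) (B : RBase N) :
    Integrable (fun z => logZ (P.ham s x B z)) (dzLaw G L B) := by
  obtain ⟨b, hb, hle⟩ := exists_ham_bound P s x B
  refine (((integrable_const (Real.log (Fintype.card (Cube N)))).add
    (hb.const_mul (Fintype.card (Cube N) : ℝ)))).mono'
    (Real.measurable_log.comp (Finset.measurable_sum _ fun τ _ =>
      (measurable_ham P s x B τ).exp)).aestronglyMeasurable (Eventually.of_forall fun z => ?_)
  refine (abs_logZ_le _).trans (add_le_add le_rfl ?_)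
  refine (Finset.sum_le_sum fun σ _ => hle z σ).trans (le_of_eq ?_)
  rw [Finset.sum_const, Finset.card_univ, nsmul_eq_mul]

theorem rav_one {X : Type*} [Fintype X] (H : X → ℝ) (f : X → ℝ) :
    rav 1 H (fun σ => f (σ 0)) = gav H f := by
  rw [rav, gav, ← (Equiv.funUnique (Fin 1) X).symm.sum_comp]
  exact Finset.sum_congr rfl fun x _ => by simp [uniqueElim_const]

/-- The mean self-overlap of block `k`. -/
def selfMean (a : Fin (K + 1) → ℝ) (w : Fin N → Fin (K + 1)) (s : ℝ) (x : Fin L → ℝ) (B : RBase N)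
    (k : Fin (K + 1)) : ℝ :=
  (stdSys a w).ovMean s x B 1 fun R => R k.succ 0 0

theorem selfMean_mem (a : Fin (K + 1) → ℝ) (w : Fin N → Fin (K + 1)) (s : ℝ) (x : Fin L → ℝ)
    (B : RBase N) (k : Fin (K + 1)) :
    0 ≤ selfMean a w s x B k ∧ selfMean a w s x B k ≤ 1 := by
  have h0 : ∀ z : Dz (K + 2) L B, 0 ≤ gav ((stdSys a w).ham s x B z)
      (fun σ => (stdSys a w).ov z.1 k.succ σ σ) := fun z =>
    Finset.sum_nonneg fun σ _ => mul_nonneg (gw_nonneg _ _) (block_self a w z.1 k σ).1
  have e : selfMean a w s x B k = ∫ z, gav ((stdSys a w).ham s x B z)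
      (fun σ => (stdSys a w).ov z.1 k.succ σ σ) ∂dzLaw (K + 2) L B := by
    refine integral_congr_ae (Eventually.of_forall fun z => ?_)
    exact rav_one _ (fun σ => (stdSys a w).ov z.1 k.succ σ σ)
  rw [e]
  refine ⟨integral_nonneg h0, ?_⟩
  have := norm_integral_le_of_norm_le_const (μ := dzLaw (K + 2) L B) (C := (1 : ℝ))
    (f := fun z => gav ((stdSys a w).ham s x B z) (fun σ => (stdSys a w).ov z.1 k.succ σ σ))
    (Eventually.of_forall fun z => gav_abs_le _ _ fun σ => abs_le.2
      ⟨(by linarith [(block_self a w z.1 k σ).1]), (block_self a w z.1 k σ).2⟩)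
  rw [probReal_univ, mul_one] at this
  exact (le_abs_self _).trans this

/-- The free energy lies below its tangent in the atoms. -/
theorem free_tangent (hN : 0 < N) (a a' : Fin (K + 1) → ℝ) (w : Fin N → Fin (K + 1)) (s : ℝ)
    (x : Fin L → ℝ) (B : RBase N) :
    (stdSys a' w).free s x B - (stdSys a w).free s x B ≤
      (N : ℝ) / 2 * ∑ k, (a' k - a k) * selfMean a' w s x B k := by
  set P := stdSys a' w
  set μ := dzLaw (K + 2) L B
  have hi : ∀ k : Fin (K + 1), Integrable (fun z => gav (P.ham s x B z)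
      (fun σ => P.ov z.1 k.succ σ σ)) μ := fun k => by
    refine Integrable.of_bound (Measurable.aestronglyMeasurable ?_) 1 (Eventually.of_forall fun z =>
      gav_abs_le _ _ fun σ => abs_le.2
        ⟨(by linarith [(block_self a' w z.1 k σ).1]), (block_self a' w z.1 k σ).2⟩)
    refine Finset.measurable_sum _ fun σ _ => (measurable_gw P s x B σ).mul ?_
    exact ((Finset.measurable_sum _ fun i _ => ((continuous_rot σ i).measurable.mul
      (continuous_rot σ i).measurable).comp measurable_fst).div_const _)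
  have hsum : Integrable (fun z => (N : ℝ) / 2 * ∑ k, (a' k - a k) *
      gav (P.ham s x B z) (fun σ => P.ov z.1 k.succ σ σ)) μ :=
    (integrable_finsetSum _ fun k _ => (hi k).const_mul _).const_mul _
  have e : ∀ k, selfMean a' w s x B k = ∫ z, gav (P.ham s x B z)
      (fun σ => P.ov z.1 k.succ σ σ) ∂μ := fun k =>
    integral_congr_ae (Eventually.of_forall fun z => rav_one _ (fun σ => P.ov z.1 k.succ σ σ))
  unfold Sys.free
  rw [← integral_sub (integrable_logZ _ _ _ _) (integrable_logZ _ _ _ _)]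
  refine (integral_mono ((integrable_logZ _ _ _ _).sub (integrable_logZ _ _ _ _)) hsum fun z => ?_).trans
    (le_of_eq ?_)
  · refine (logZ_tangent _ _).trans (le_of_eq ?_)
    have hd : ∀ σ, P.ham s x B z σ - (stdSys a w).ham s x B z σ =
        (N : ℝ) / 2 * ∑ k, (a' k - a k) * P.ov z.1 k.succ σ σ := fun σ => by
      rw [← energy_diff a a' w hN z.1 σ]
      have hp : (stdSys a w).pert s x z.1 z.2.1 σ = (stdSys a' w).pert s x z.1 z.2.1 σ := rfl
      simp only [P, Sys.ham, Sys.ham0, hp]
      show B.lw z.2.2 σ + (1 / 2 * (∑ i, a' (w i) * rot z.1 σ i ^ 2) + _) -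
        (B.lw z.2.2 σ + (1 / 2 * (∑ i, a (w i) * rot z.1 σ i ^ 2) + _)) = _
      ring
    simp only [gav, hd, Finset.mul_sum]
    rw [Finset.sum_comm]
    exact Finset.sum_congr rfl fun k _ => Finset.sum_congr rfl fun σ _ => by ring
  · simp only [e]
    rw [integral_const_mul, integral_finsetSum _ fun k _ => (hi k).const_mul _]
    simp only [integral_const_mul]

theorem free_atom_mono (hN : 0 < N) {a a' : Fin (K + 1) → ℝ} (hle : ∀ k, a k ≤ a' k)
    (w : Fin N → Fin (K + 1)) (s : ℝ) (x : Fin L → ℝ) (B : RBase N) :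
    (stdSys a w).free s x B ≤ (stdSys a' w).free s x B := by
  have h := free_tangent hN a' a w s x B
  have : ∑ k, (a k - a' k) * selfMean a w s x B k ≤ 0 := Finset.sum_nonpos fun k _ =>
    mul_nonpos_of_nonpos_of_nonneg (by linarith [hle k]) (selfMean_mem a w s x B k).1
  nlinarith [(Nat.cast_pos.2 hN : (0 : ℝ) < N)]

theorem free_atom_lip (hN : 0 < N) (a a' : Fin (K + 1) → ℝ) (w : Fin N → Fin (K + 1)) (s : ℝ)
    (x : Fin L → ℝ) (B : RBase N) :
    |(stdSys a' w).free s x B - (stdSys a w).free s x B| ≤ (N : ℝ) / 2 * ∑ k, |a' k - a k| := by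
  have hb : ∀ b b' : Fin (K + 1) → ℝ,
      (stdSys b' w).free s x B - (stdSys b w).free s x B ≤ (N : ℝ) / 2 * ∑ k, |b' k - b k| := by
    intro b b'
    refine (free_tangent hN b b' w s x B).trans (mul_le_mul_of_nonneg_left
      (Finset.sum_le_sum fun k _ => ?_) (by positivity))
    refine (le_abs_self _).trans ?_
    rw [abs_mul]
    exact mul_le_of_le_one_right (abs_nonneg _) (abs_le.2
      ⟨(by linarith [(selfMean_mem b' w s x B k).1]), (selfMean_mem b' w s x B k).2⟩)
  refine abs_sub_le_iff.2 ⟨hb a a', ?_⟩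
  have := hb a' a
  simpa [abs_sub_comm] using this

end Vale.Agent.P166.Haar2.Upper
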