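import Vale.Agent.P166.Haar2.Upper.Point
import Vale.Agent.P157.Parisi.Main.Mass

/-!
At a nearly maximal point the self-overlaps of the blocks weighted by the atoms are at most their
value at the trial path.
-/

noncomputable section

open MeasureTheory ProbabilityTheory Filter
open scoped BigOperators Topology

namespace Vale.Agent.P166.Haar2.Upper

open Vale.Agent.P157 (gam)
open Vale.Agent.P157.Parisi (Cube Path IsPath scale overlap)
open Vale.Agent.P157.Parisi.Full (tailSum slotVar slotMax slot_small slotVar_pos slotVar_le_one excess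
  abs_excess_sub_le excess_eq_tail treeExp_excess)
open Vale.Agent.P168 (cascFilter shapeProb)
open Vale.Agent.P168.Cascade (Exps)
open Vale.Agent.P168.Limit (logZ gav rav gw)
open Vale.Agent.P168.Upper (cascFilter_neBot)
open Vale.Agent.P157.Parisi.Up (svar)

variable {K r : ℕ}

theorem atomsAt_update (A : Atoms K) (t : ℝ) (N : ℕ) (y : Fin (K + 1) → ℝ) (k : Fin (K + 1))
    (d : ℝ) :
    Function.update (atomsAt A t N y) k (atomsAt A t N y k + eta N * d) =
      atomsAt A t N (Function.update y k (y k + d)) := by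
  funext i
  rcases eq_or_ne i k with rfl | hi
  · simp only [Function.update_self, atomsAt, shifted]; ring
  · simp only [Function.update_of_ne hi, atomsAt, shifted]

theorem diffStep_mem {N : ℕ} (hN : 0 < N) : 0 < diffStep N ∧ diffStep N ≤ 1 :=
  ⟨Real.rpow_pos_of_pos (Nat.cast_pos.2 hN) _,
    Real.rpow_le_one_of_one_le_of_nonpos (by exact_mod_cast hN) (by norm_num)⟩

theorem eta_mem {N : ℕ} (hN : 0 < N) : 0 < eta N ∧ eta N ≤ 1 ∧ 1 ≤ eta N * N := by
  have hN0 : (0 : ℝ) < N := Nat.cast_pos.2 hN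
  have hN1 : (1 : ℝ) ≤ N := by exact_mod_cast hN
  refine ⟨Real.rpow_pos_of_pos hN0 _,
    Real.rpow_le_one_of_one_le_of_nonpos hN1 (by norm_num), ?_⟩
  rw [eta, ← Real.rpow_add_one hN0.ne']
  exact Real.one_le_rpow hN1 (by norm_num)

theorem tol_eta {N : ℕ} (hN : 0 < N) (K : ℕ) : tol K N ≤ eta N * N :=
  (tol_le K).2.1.trans (eta_mem hN).2.2

theorem tendsto_eta : Tendsto eta atTop (𝓝 0) := by
  have := (tendsto_rpow_neg_atTop (by norm_num : (0 : ℝ) < 1 / 8)).comp
    (tendsto_natCast_atTop_atTop (R := ℝ))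
  exact this

theorem tail_rate {N : ℕ} (hN : 0 < N) (K : ℕ) {a : ℝ} (ha : 0 ≤ a) (hv : 0 < svar a) :
    (40 * (Real.sqrt (slotVar N) * (N * a)) ^ 3 + 2 * tol K N) / (svar a * slotVar N * N) ≤
      40 * (a ^ 3 / ((N : ℝ) + 1)) / svar a + 128 / (svar a * N) := by
  have hN0 : (0 : ℝ) < N := Nat.cast_pos.2 hN
  have hN1 : (1 : ℝ) ≤ N := by exact_mod_cast hN
  have hδ := slotVar_pos N
  rw [add_div]
  refine add_le_add ?_ ?_
  · have e : 40 * (Real.sqrt (slotVar N) * ((N : ℝ) * a)) ^ 3 / (svar a * slotVar N * N) =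
        40 * ((Real.sqrt (slotVar N) * ((N : ℝ) * a)) ^ 3 / (slotVar N * N)) / svar a := by ring
    rw [e]
    exact div_le_div_of_nonneg_right (mul_le_mul_of_nonneg_left (slot_small ha N).2 (by norm_num))
      hv.le
  · have h1 : tol K N * ((N : ℝ) + 1) ^ 6 ≤ 64 := by
      have h2 : ((N : ℝ) + 1) ^ 6 ≤ (2 * N) ^ 6 := pow_le_pow_left₀ (by linarith) (by linarith) 6
      have h3 : (N : ℝ) ^ 6 ≤ (N : ℝ) ^ 8 := pow_le_pow_right₀ hN1 (by norm_num)
      have h4 := (tol_le (N := N) K).1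
      calc tol K N * ((N : ℝ) + 1) ^ 6 ≤ 1 / (1 + (N : ℝ) ^ 8) * (2 * N) ^ 6 :=
            mul_le_mul h4 h2 (by positivity) (by positivity)
        _ ≤ 64 := by
            rw [div_mul_eq_mul_div, one_mul, div_le_iff₀ (by positivity), mul_pow]
            linarith
    have e : 2 * tol K N / (svar a * slotVar N * N) =
        2 * (tol K N * ((N : ℝ) + 1) ^ 6) / (svar a * N) := by
      rw [slotVar]; field_simp
    rw [e]
    exact div_le_div_of_nonneg_right (by linarith) (by positivity)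

theorem vgram_block (A : Atoms K) (ξ : Path) (v : Vale.Agent.P168.Shape ξ.r 1) (k : Fin (K + 1)) :
    A.vgram ξ v k.succ 0 0 = (A.blockEl ξ.m ξ.q k).s := by
  simp [Atoms.vgram]

theorem treeExpV_self (A : Atoms K) (ξ : Path) (k : Fin (K + 1)) :
    A.treeExpV ξ 1 (fun R => R k.succ 0 0) = (A.blockEl ξ.m ξ.q k).s := by
  simp only [Atoms.treeExpV, vgram_block, ← Finset.sum_mul,
    Vale.Agent.P157.Parisi.Main.sum_shapeProb, one_mul]

theorem treeExpV_excess (A : Atoms K) (ξ : Path) (b : ℝ) :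
    A.treeExpV ξ 2 (fun R => max (R 0 0 1 - b) 0) = excess ξ.m ξ.q b := by
  rw [← treeExp_excess ξ b]
  rfl

/-- The scaled atoms at the trial path. -/
theorem self_target (hB : BlockFactsStmt) (hFA : FunAStmt) (hFT : FunTimeStmt) (A : Atoms K)
    {t : ℝ} (ht : 0 < t) (ht1 : t ≤ 1) {m : Fin r → ℝ} {q : Fin (r + 1) → ℝ} (hq : IsPath m q) :
    ∃ C : ℝ, 0 ≤ C ∧ ∀ (ξ : Path) (e : ℝ), 0 ≤ e →
      (∀ u ∈ Set.Icc (0 : ℝ) 1, excess m q u ≤ excess ξ.m ξ.q u + e) →
      ∑ k, A.a k * ((A.scale t ht).blockEl ξ.m ξ.q k).s ≤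
        (∫ u in (0 : ℝ)..1, A.dpsi (t * dfun m q u)) + C * e := by
  obtain ⟨CB, hCB⟩ := hB K (A.scale t ht)
  obtain ⟨CA, -, hCA⟩ := hFA K (A.scale t ht)
  obtain ⟨CT, hCT⟩ := hFT K A
  refine ⟨|CA| / t, by positivity, fun ξ e he hex => ?_⟩
  have h1 := (hCB ξ.r ξ.m ξ.q ξ.isPath).2.2.2
  have h2 := (hCB r m q hq).2.2.2
  have h3 := hCA ⟨r, m, q, hq⟩ ξ e he hex
  obtain ⟨-, -, h4⟩ := hCT r m q hq t t ht ht.le le_rfl ht1
  have hs : ∀ (r' : ℕ) (m' : Fin r' → ℝ) (q' : Fin (r' + 1) → ℝ),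
      ∑ k, (A.scale t ht).a k * ((A.scale t ht).blockEl m' q' k).s =
        t * ∑ k, A.a k * ((A.scale t ht).blockEl m' q' k).s := fun r' m' q' => by
    rw [Finset.mul_sum]
    exact Finset.sum_congr rfl fun k _ => mul_assoc _ _ _
  rw [hs] at h1 h2
  simp only at h3
  rw [← h4]
  refine le_of_mul_le_mul_left ?_ ht
  rw [mul_add, h1, h2, ← mul_assoc, mul_div_cancel₀ _ ht.ne']
  linarith [mul_le_mul_of_nonneg_right (le_abs_self CA) he]

/-- The key estimate. -/
theorem key (hS : SlotStepStmt) (hTr : SlotTruncStmt) (hSh : PertShapeStmt) (hD : SlotDevStmt)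
    (hSt : StructStmt) (hB : BlockFactsStmt) (hFA : FunAStmt) (hFT : FunTimeStmt)
    (A : Atoms K) (Nf : ℕ → ℕ) (w : (j : ℕ) → Fin (Nf j) → Fin (K + 1))
    (hNf : Tendsto Nf atTop atTop) (hfr : ∀ k, Tendsto (fun j => frac (w j) k) atTop (𝓝 (A.c k)))
    {m : Fin r → ℝ} {q : Fin (r + 1) → ℝ} (hq : IsPath m q) {t : ℝ} (ht : 0 < t) (ht1 : t ≤ 1)
    {ε : ℝ} (hε : 0 < ε) :
    ∃ e > 0, ∀ a η κ R : ℝ, 0 ≤ a → 0 < svar a → 0 < η → 0 ≤ κ → 4 * κ + 2 * η ≤ e →
      ∀ᶠ j in atTop, ∀ (T : ℕ) (ks : Fin T → Fin (r + 1)) (x : Fin (Nf j) → ℝ)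
        (y : Fin (K + 1) → ℝ),
        IsNear A (w j) (slotVar (Nf j)) a η m q t (slotMax R (Nf j)) ks x y →
        T < slotMax R (Nf j) → slotVar (Nf j) * T ≤ R →
        η * (svar a * slotVar (Nf j) * T) ≤ κ →
        ∀ᶠ n in cascFilter r, ∑ k, A.a k * selfMean (atomsAt A t (Nf j) y) (w j) (scale (Nf j)) x
            (slotBase (Nf j) (slotVar (Nf j)) a m ks n) k ≤
          (∫ u in (0 : ℝ)..1, A.dpsi (t * dfun m q u)) + ε := by
  have := cascFilter_neBot r
  have hm : Exps m := ⟨hq.pos, hq.lt_one, hq.strictMono⟩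
  obtain ⟨CT, hCT0, htarget⟩ := self_target hB hFA hFT A ht ht1 hq
  set e : ℝ := ε / (4 * (CT + 1))
  have he : 0 < e := by positivity
  obtain ⟨J, hJ⟩ := exists_nat_gt (8 / e)
  have hJ0 : (0 : ℝ) < J := lt_trans (by positivity) hJ
  refine ⟨e / 4, by positivity, fun a η κ R ha hv hη hκ hek => ?_⟩
  set C₀ : ℝ := (∑ k, |A.a k|) + 5
  obtain ⟨Cd, hdev⟩ := hD r m hm (K + 2) C₀ R a ha
  by_contra hcon
  rw [not_eventually] at hcon
  have hsmall : ∀ᶠ j in atTop, 0 < Nf j ∧ a / ((Nf j : ℝ) + 1) ≤ 1 / 10 ∧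
      40 * (a ^ 3 / ((Nf j : ℝ) + 1)) / svar a + 128 / (svar a * Nf j) ≤ e / 8 := by
    have hc : Tendsto (fun j => (Nf j : ℝ)) atTop atTop := tendsto_natCast_atTop_atTop.comp hNf
    have hc1 : Tendsto (fun j => (Nf j : ℝ) + 1) atTop atTop :=
      tendsto_atTop_add_const_right _ _ hc
    have h2 : Tendsto (fun j => 40 * (a ^ 3 / ((Nf j : ℝ) + 1)) / svar a + 128 / (svar a * Nf j))
        atTop (𝓝 0) := by
      simpa using ((((tendsto_const_nhds (x := a ^ 3)).div_atTop hc1).const_mul 40).div_const (svar a)).add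
        ((tendsto_const_nhds (x := (128 : ℝ))).div_atTop (Tendsto.const_mul_atTop hv hc))
    exact (hNf.eventually (eventually_gt_atTop 0)).and
      (((tendsto_const_nhds.div_atTop hc1).eventually (eventually_le_nhds (by norm_num))).and
        (h2.eventually (eventually_le_nhds (by positivity))))
  obtain ⟨φ, hφ, hbad⟩ := extraction_of_frequently_atTop (hcon.and_eventually hsmall)
  set Tgt := (∫ u in (0 : ℝ)..1, A.dpsi (t * dfun m q u)) + ε
  have h1 : ∀ i, ∃ (T : ℕ) (ks : Fin T → Fin (r + 1)) (x : Fin (Nf (φ i)) → ℝ)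
      (y : Fin (K + 1) → ℝ),
      IsNear A (w (φ i)) (slotVar (Nf (φ i))) a η m q t (slotMax R (Nf (φ i))) ks x y ∧
      T < slotMax R (Nf (φ i)) ∧ slotVar (Nf (φ i)) * T ≤ R ∧
      η * (svar a * slotVar (Nf (φ i)) * T) ≤ κ ∧
      ∃ᶠ n in cascFilter r, Tgt < ∑ k, A.a k * selfMean (atomsAt A t (Nf (φ i)) y) (w (φ i))
        (scale (Nf (φ i))) x (slotBase (Nf (φ i)) (slotVar (Nf (φ i))) a m ks n) k := by
    intro i
    have h := (hbad i).1
    simp only [not_forall, not_eventually, not_le] at h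
    obtain ⟨T, ks, x, y, h1, h2, h3, h4, h5⟩ := h
    exact ⟨T, ks, x, y, h1, h2, h3, h4, h5⟩
  choose T ks x y hnear hT hTR hTκ hfreq using h1
  set Ns : ℕ → ℕ := fun i => Nf (φ i) with hNs
  have hN : ∀ i, 0 < Ns i := fun i => (hbad i).2.1
  set δ : ℕ → ℝ := fun i => slotVar (Ns i)
  have hδ : ∀ i, 0 < δ i := fun i => slotVar_pos _
  set b : (i : ℕ) → Fin (K + 1) → ℝ := fun i => atomsAt A t (Ns i) (y i)
  have hx : ∀ i p, x i p ∈ Set.Icc (1 : ℝ) 2 := fun i p =>
    (hnear i).coord_x hTr hSh (hN i) hm (hδ i).le ha p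
  have hy : ∀ i k, y i k ∈ Set.Icc (1 : ℝ) 2 := fun i k =>
    (hnear i).coord_y hTr (hN i) hm (hδ i).le ha (tol_eta (hN i) K) k
  -- the caps and the concentration along the truncations
  set C : ℝ := max Cd 300
  have hD3 : ∀ i, ∀ d ∈ ({0, diffStep (Ns i), -diffStep (Ns i)} : Set ℝ), |d| ≤ 1 := by
    intro i d hd
    obtain ⟨h1, h2⟩ := diffStep_mem (hN i)
    rcases hd with rfl | rfl | rfl <;> simp [abs_of_pos h1, h2]
  have hrate : ∀ i, 0 ≤ devRate (Ns i) := fun i => by
    have : (0 : ℝ) ≤ scale (Ns i) := Real.rpow_nonneg (Nat.cast_nonneg _) _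
    unfold devRate; positivity
  have hatom : ∀ i (z : Fin (K + 1) → ℝ), (∀ k, |z k| ≤ 4) → ∀ k, |atomsAt A t (Ns i) z k| ≤ C₀ := by
    intro i z hz k
    refine (abs_add_le _ _).trans (add_le_add ?_ ?_)
    · rw [abs_mul, abs_of_pos ht]
      exact (mul_le_of_le_one_left (abs_nonneg _) ht1).trans
        (Finset.single_le_sum (f := fun k => |A.a k|) (fun k _ => abs_nonneg _) (Finset.mem_univ k))
    · rw [abs_mul, abs_of_pos (eta_mem (hN i)).1]
      calc eta (Ns i) * |z k| ≤ 1 * 4 :=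
            mul_le_mul (eta_mem (hN i)).2.1 (hz k) (abs_nonneg _) zero_le_one
        _ ≤ 5 := by norm_num
  have hev : ∀ i, ∀ᶠ n in cascFilter r,
      let B := slotBase (Ns i) (δ i) a m (ks i) n
      (∀ p, (stdSys (b i) (w (φ i))).free (scale (Ns i))
            (Function.update (x i) p (x i p + diffStep (Ns i))) B +
          (stdSys (b i) (w (φ i))).free (scale (Ns i))
            (Function.update (x i) p (x i p - diffStep (Ns i))) B -
          2 * (stdSys (b i) (w (φ i))).free (scale (Ns i)) (x i) B ≤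
        C * (1 + scale (Ns i) ^ 2 * diffStep (Ns i) ^ 2)) ∧
      (∀ k, (stdSys (Function.update (b i) k (b i k + eta (Ns i) * diffStep (Ns i))) (w (φ i))).free
            (scale (Ns i)) (x i) B +
          (stdSys (Function.update (b i) k (b i k - eta (Ns i) * diffStep (Ns i))) (w (φ i))).free
            (scale (Ns i)) (x i) B -
          2 * (stdSys (b i) (w (φ i))).free (scale (Ns i)) (x i) B ≤
        C * (1 + eta (Ns i) * Ns i * diffStep (Ns i) ^ 2)) ∧
      (∀ p, ∀ d ∈ ({0, diffStep (Ns i), -diffStep (Ns i)} : Set ℝ),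
        (stdSys (b i) (w (φ i))).dev (scale (Ns i)) (Function.update (x i) p (x i p + d)) B ≤
          C * devRate (Ns i)) ∧
      (∀ k, ∀ d ∈ ({0, diffStep (Ns i), -diffStep (Ns i)} : Set ℝ),
        (stdSys (Function.update (b i) k (b i k + eta (Ns i) * d)) (w (φ i))).dev (scale (Ns i))
          (x i) B ≤ C * devRate (Ns i)) ∧
      ∀ (k : Fin (r + 1)) (l : Fin (J + 1)),
        tailSum m q k - (l.val : ℝ) / J * tailSum m (fun _ => 1) k ≤
          (stdSys (b i) (w (φ i))).ovMean (scale (Ns i)) (x i) B 2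
            (fun R => max (R 0 0 1 - (l.val : ℝ) / J) 0) + (3 * e / 8 + 1 / ((i : ℝ) + 1)) := by
    intro i
    obtain ⟨hh0, hh1⟩ := diffStep_mem (hN i)
    set h := diffStep (Ns i)
    have habs : |h| ≤ 1 := by rw [abs_of_pos hh0]; exact hh1
    have habs' : |-h| ≤ 1 := by rw [abs_neg]; exact habs
    have lim := fun (z : Fin (K + 1) → ℝ) (u : Fin (Ns i) → ℝ) =>
      lim_sfree (w := w (φ i)) (s := scale (Ns i)) hTr (hN i) hm (hδ i).le ha (ks i) z u
    have e1 := fun (k : Fin (K + 1)) (d : ℝ) => atomsAt_update A t (Ns i) (y i) k d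
    have hcapx : ∀ p, ∀ᶠ n in cascFilter r,
        (stdSys (b i) (w (φ i))).free (scale (Ns i))
            (Function.update (x i) p (x i p + h)) (slotBase (Ns i) (δ i) a m (ks i) n) +
          (stdSys (b i) (w (φ i))).free (scale (Ns i))
            (Function.update (x i) p (x i p - h)) (slotBase (Ns i) (δ i) a m (ks i) n) -
          2 * (stdSys (b i) (w (φ i))).free (scale (Ns i)) (x i)
            (slotBase (Ns i) (δ i) a m (ks i) n) ≤
          C * (1 + scale (Ns i) ^ 2 * h ^ 2) := fun p => by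
      have hc := (hnear i).cap_x hTr hSh (hN i) hm (hδ i).le ha habs p
      filter_upwards [(((lim (b i) (Function.update (x i) p (x i p + h))).add
        (lim (b i) (Function.update (x i) p (x i p - h)))).sub ((lim (b i) (x i)).const_mul 2)).eventually
          (eventually_le_nhds (lt_add_one _))] with n hn
      have h300 : (300 : ℝ) ≤ C := le_max_right _ _
      have hp : 0 ≤ scale (Ns i) ^ 2 * h ^ 2 := by positivity
      simp only [b] at hn ⊢
      nlinarith [mul_le_mul_of_nonneg_right h300 (by linarith : 0 ≤ 1 + scale (Ns i) ^ 2 * h ^ 2)]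
    have hcapy : ∀ k, ∀ᶠ n in cascFilter r,
        (stdSys (Function.update (b i) k (b i k + eta (Ns i) * h)) (w (φ i))).free
            (scale (Ns i)) (x i) (slotBase (Ns i) (δ i) a m (ks i) n) +
          (stdSys (Function.update (b i) k (b i k - eta (Ns i) * h)) (w (φ i))).free
            (scale (Ns i)) (x i) (slotBase (Ns i) (δ i) a m (ks i) n) -
          2 * (stdSys (b i) (w (φ i))).free (scale (Ns i)) (x i)
            (slotBase (Ns i) (δ i) a m (ks i) n) ≤
          C * (1 + eta (Ns i) * Ns i * h ^ 2) := fun k => by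
      have hc := (hnear i).cap_y hTr (hN i) hm (hδ i).le ha (tol_eta (hN i) K) habs k
      have e2 : Function.update (b i) k (b i k - eta (Ns i) * h) =
          atomsAt A t (Ns i) (Function.update (y i) k (y i k - h)) := by
        have := e1 k (-h)
        rw [mul_neg, ← sub_eq_add_neg, ← sub_eq_add_neg] at this
        exact this
      rw [show Function.update (b i) k (b i k + eta (Ns i) * h) =
        atomsAt A t (Ns i) (Function.update (y i) k (y i k + h)) from e1 k h, e2]
      filter_upwards [(((lim (atomsAt A t (Ns i) (Function.update (y i) k (y i k + h))) (x i)).add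
        (lim (atomsAt A t (Ns i) (Function.update (y i) k (y i k - h))) (x i))).sub
          ((lim (b i) (x i)).const_mul 2)).eventually (eventually_le_nhds (lt_add_one _))] with n hn
      have h300 : (300 : ℝ) ≤ C := le_max_right _ _
      have hp : 0 ≤ eta (Ns i) * Ns i * h ^ 2 := by
        have := (eta_mem (hN i)).1; positivity
      simp only [b] at hn ⊢
      nlinarith [mul_le_mul_of_nonneg_right h300 (by linarith : 0 ≤ 1 + eta (Ns i) * Ns i * h ^ 2)]
    have hdv : ∀ (z : Fin (K + 1) → ℝ) (u : Fin (Ns i) → ℝ), (∀ k, |z k| ≤ C₀) →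
        (∀ p, |u p| ≤ C₀) → ∀ᶠ n in cascFilter r,
        (stdSys z (w (φ i))).dev (scale (Ns i)) u (slotBase (Ns i) (δ i) a m (ks i) n) ≤
          C * devRate (Ns i) := fun z u hz hu => by
      filter_upwards [hdev (Ns i) (Ns i) (T i) (stdSys z (w (φ i))) (hN i) (fun l => hz _) le_rfl
        (δ i) (hδ i).le (hTR i) (ks i) u hu] with n hn
      exact hn.trans (mul_le_mul_of_nonneg_right (le_max_left _ _) (hrate i))
    have hC5 : (5 : ℝ) ≤ C₀ := le_add_of_nonneg_left (Finset.sum_nonneg fun k _ => abs_nonneg _)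
    have hxb : ∀ p (d : ℝ), |d| ≤ 1 → ∀ l, |Function.update (x i) p (x i p + d) l| ≤ C₀ := by
      intro p d hd l
      obtain ⟨d1, d2⟩ := abs_le.1 hd
      rcases eq_or_ne l p with rfl | hl
      · rw [Function.update_self]
        exact abs_le.2 ⟨by linarith [(hx i l).1], by linarith [(hx i l).2]⟩
      · rw [Function.update_of_ne hl]
        exact abs_le.2 ⟨by linarith [(hx i l).1], by linarith [(hx i l).2]⟩
    have hx0 : ∀ l, |x i l| ≤ C₀ := fun l =>
      abs_le.2 ⟨by linarith [(hx i l).1], by linarith [(hx i l).2]⟩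
    have hy0 : ∀ l, |y i l| ≤ 4 := fun l =>
      abs_le.2 ⟨by linarith [(hy i l).1], by linarith [(hy i l).2]⟩
    have hyb : ∀ k (d : ℝ), |d| ≤ 1 → ∀ l, |Function.update (b i) k (b i k + eta (Ns i) * d) l| ≤ C₀ := by
      intro k d hd l
      rw [e1 k d]
      refine hatom i _ (fun l' => ?_) l
      obtain ⟨d1, d2⟩ := abs_le.1 hd
      rcases eq_or_ne l' k with rfl | hl
      · rw [Function.update_self]
        exact abs_le.2 ⟨by linarith [(hy i l').1], by linarith [(hy i l').2]⟩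
      · rw [Function.update_of_ne hl]; exact hy0 l'
    have hdev3 : ∀ d ∈ ({0, h, -h} : Finset ℝ),
        (∀ p, ∀ᶠ n in cascFilter r, (stdSys (b i) (w (φ i))).dev (scale (Ns i))
          (Function.update (x i) p (x i p + d)) (slotBase (Ns i) (δ i) a m (ks i) n) ≤
            C * devRate (Ns i)) ∧
        ∀ k, ∀ᶠ n in cascFilter r,
          (stdSys (Function.update (b i) k (b i k + eta (Ns i) * d)) (w (φ i))).dev (scale (Ns i))
            (x i) (slotBase (Ns i) (δ i) a m (ks i) n) ≤ C * devRate (Ns i) := by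
      intro d hd
      have hd1 : |d| ≤ 1 := hD3 i d (by simpa [h] using hd)
      exact ⟨fun p => hdv _ _ (hatom i _ hy0) (hxb p d hd1), fun k => hdv _ _ (hyb k d hd1) hx0⟩
    have htail : ∀ (k : Fin (r + 1)) (l : Fin (J + 1)), ∀ᶠ n in cascFilter r,
        tailSum m q k - (l.val : ℝ) / J * tailSum m (fun _ => 1) k ≤
          (stdSys (b i) (w (φ i))).ovMean (scale (Ns i)) (x i) (slotBase (Ns i) (δ i) a m (ks i) n) 2
            (fun R => max (R 0 0 1 - (l.val : ℝ) / J) 0) + (3 * e / 8 + 1 / ((i : ℝ) + 1)) := by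
      intro k l
      have hsm := (hbad i).2.2
      obtain ⟨hs1, -⟩ := slot_small ha (Ns i)
      have h := (hnear i).tail_le hS (hT i) (hN i) hm (hδ i) ha hv (hs1.trans hsm.1) k
      have hr := (tail_rate (hN i) K ha hv).trans hsm.2
      have e3 : svar a * δ i ≤ 1 :=
        mul_le_one₀ (Vale.Agent.P157.Parisi.Up.svar_le_one ha) (hδ i).le (slotVar_le_one _)
      have e4 : 2 * η * (svar a * δ i * (2 * (T i : ℝ) + 1)) ≤ e / 4 := by
        nlinarith [hTκ i, mul_le_mul_of_nonneg_left e3 hη.le]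
      filter_upwards [(hTr (K + 2) (Ns i) (Ns i) (T i) r (stdSys (b i) (w (φ i))) (hN i) m hm (δ i) a
        (hδ i).le ha (scale (Ns i)) (x i) (ks i)).2 k ((l.val : ℝ) / J) (by positivity)
          (1 / ((i : ℝ) + 1)) (by positivity)] with n hn
      have eov : (stdSys (b i) (w (φ i))).ovMean (scale (Ns i)) (x i)
          (slotBase (Ns i) (δ i) a m (ks i) n) 2 (fun R => max (R 0 0 1 - (l.val : ℝ) / J) 0) =
          ∫ z, rav 2 ((stdSys (b i) (w (φ i))).ham (scale (Ns i)) (x i)
            (slotBase (Ns i) (δ i) a m (ks i) n) z) (fun σ =>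
              max (overlap (σ 0) (σ 1) - (l.val : ℝ) / J) 0)
            ∂dzLaw (K + 2) (Ns i) (slotBase (Ns i) (δ i) a m (ks i) n) := by
        refine integral_congr_ae (Eventually.of_forall fun z => ?_)
        simp only [Sys.ovs, stdSys_ov_master]
      rw [eov]
      linarith
    filter_upwards [eventually_all.2 hcapx, eventually_all.2 hcapy,
      (eventually_all_finset ({0, h, -h} : Finset ℝ)).2 fun d hd => (eventually_all.2 (hdev3 d hd).1).and
        (eventually_all.2 (hdev3 d hd).2),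
      eventually_all.2 fun k => eventually_all.2 fun l => htail k l] with n h1 h2 h3 h4
    exact ⟨h1, h2, fun p d hd => (h3 d (by simpa [h] using hd)).1 p,
      fun k d hd => (h3 d (by simpa [h] using hd)).2 k, h4⟩
  choose n hn1 hn2 using fun i => ((hfreq i).and_eventually (hev i)).exists
  -- the structure along a subsequence
  set Q : SysSeq K := ⟨Ns, b, fun i => w (φ i),
    fun i => slotBase (Ns i) (δ i) a m (ks i) (n i), x⟩
  have hNt : Tendsto Ns atTop atTop := hNf.comp hφ.tendsto_atTop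
  have hStd : Q.Std (A.scale t ht) := by
    refine ⟨hNt, hN, fun k => ?_, fun k => (hfr k).comp hφ.tendsto_atTop, fun i p => ?_⟩
    · have h0 : Tendsto (fun i => eta (Ns i) * y i k) atTop (𝓝 0) := by
        refine squeeze_zero (fun i => mul_nonneg (eta_mem (hN i)).1.le (by linarith [(hy i k).1]))
          (fun i => mul_le_mul_of_nonneg_left (hy i k).2 (eta_mem (hN i)).1.le) ?_
        simpa using (tendsto_eta.comp hNt).mul_const 2
      show Tendsto (fun i => atomsAt A t (Ns i) (y i) k) atTop (𝓝 (t * A.a k))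
      simpa [atomsAt, shifted] using (tendsto_const_nhds (x := t * A.a k)).add h0
    · exact abs_le.2 ⟨by linarith [(hx i p).1], by linarith [(hx i p).2]⟩
  have hCap : Q.Capped C := by
    refine ⟨hx, fun i p => (hn2 i).1 p, fun i k => (hn2 i).2.1 k,
      fun i p d hd => (hn2 i).2.2.1 p d hd, fun i k d hd => (hn2 i).2.2.2.1 k d hd⟩
  obtain ⟨ψ, ξ, hψ, hap⟩ := hSt K (A.scale t ht) Q C hStd hCap
  have hself : Tendsto (fun i => ∑ k, A.a k * selfMean (b (ψ i)) (w (φ (ψ i))) (scale (Ns (ψ i)))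
      (x (ψ i)) (slotBase (Ns (ψ i)) (δ (ψ i)) a m (ks (ψ i)) (n (ψ i))) k -
      ∑ k, A.a k * ((A.scale t ht).blockEl (ξ i).m (ξ i).q k).s) atTop (𝓝 0) := by
    simp only [← Finset.sum_sub_distrib, ← mul_sub]
    rw [show (0 : ℝ) = ∑ k : Fin (K + 1), A.a k * 0 by simp]
    refine tendsto_finsetSum _ fun k _ => Tendsto.const_mul _ ?_
    have h := hap 1 (fun R => R k.succ 0 0) (by fun_prop)
    refine h.congr fun i => ?_
    rw [treeExpV_self]
    rfl
  have hexc : ∀ l : Fin (J + 1), Tendsto (fun i =>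
      Q.mean (ψ i) 2 (fun R => max (R 0 0 1 - (l.val : ℝ) / J) 0) -
        excess (ξ i).m (ξ i).q ((l.val : ℝ) / J)) atTop (𝓝 0) := fun l => by
    have h := hap 2 (fun R => max (R 0 0 1 - (l.val : ℝ) / J) 0) (by fun_prop)
    refine h.congr fun i => ?_
    rw [treeExpV_excess]
    rfl
  have hjz : Tendsto (fun i => 1 / ((ψ i : ℝ) + 1)) atTop (𝓝 0) :=
    tendsto_one_div_add_atTop_nhds_zero_nat.comp hψ.tendsto_atTop
  obtain ⟨i, hi1, hi2, hi3⟩ :=
    ((hjz.eventually (eventually_le_nhds (by positivity : (0 : ℝ) < e / 8))).and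
      ((eventually_all.2 fun l => (hexc l).eventually
          (eventually_le_nhds (by positivity : (0 : ℝ) < e / 8))).and
        (hself.eventually (eventually_le_nhds (half_pos hε))))).exists
  have hdom := htarget (ξ i) e he.le fun u hu => by
    set l : Fin (J + 1) := ⟨⌊u * J⌋₊, Nat.lt_succ_of_le (Nat.floor_le_of_le
      (mul_le_of_le_one_left hJ0.le hu.2))⟩
    have hlu : |u - (l.val : ℝ) / J| ≤ 1 / J := by
      have h1 := Nat.floor_le (mul_nonneg hu.1 hJ0.le)
      have h2 := Nat.lt_floor_add_one (u * J)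
      rw [show u - (l.val : ℝ) / J = (u * J - l.val) / J by field_simp, abs_div, abs_of_pos hJ0]
      exact div_le_div_of_nonneg_right (abs_le.2 ⟨by simp only [l]; linarith,
        by simp only [l]; linarith⟩) hJ0.le
    have h1 : excess m q ((l.val : ℝ) / J) ≤
        Q.mean (ψ i) 2 (fun R => max (R 0 0 1 - (l.val : ℝ) / J) 0) +
          (3 * e / 8 + 1 / ((ψ i : ℝ) + 1)) := by
      rcases excess_eq_tail m hq.mono ((l.val : ℝ) / J) with h | ⟨k, h⟩
      · rw [h]
        refine add_nonneg (integral_nonneg fun z => Finset.sum_nonneg fun σ _ =>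
          mul_nonneg (Finset.prod_nonneg fun o _ => gw_nonneg _ _) (le_max_right _ _)) (by positivity)
      · rw [h]; exact (hn2 (ψ i)).2.2.2.2 k l
    have h2 := (abs_le.1 (abs_excess_sub_le hm q u ((l.val : ℝ) / J))).2
    have hmξ : Exps (ξ i).m :=
      ⟨(ξ i).isPath.pos, (ξ i).isPath.lt_one, (ξ i).isPath.strictMono⟩
    have h3 := (abs_le.1 (abs_excess_sub_le hmξ (ξ i).q ((l.val : ℝ) / J) u)).2
    rw [abs_sub_comm] at h3
    have h4 : 1 / (J : ℝ) ≤ e / 8 := by
      rw [div_le_div_iff₀ hJ0 (by norm_num)]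
      rw [div_lt_iff₀ he] at hJ
      linarith
    linarith [hi2 l]
  have hbadi := hn1 (ψ i)
  simp only [Tgt] at hbadi
  have hCe : CT * e ≤ ε / 4 := by
    simp only [e]
    rw [← mul_div_assoc, div_le_div_iff₀ (by positivity) (by norm_num)]
    nlinarith
  linarith [hi3]

end Vale.Agent.P166.Haar2.Upper
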