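import Vale.Agent.P166.Haar2.Upper.Basic

/-!
The objective of the upper bound and what holds at its nearly maximal points.
-/

noncomputable section

open MeasureTheory ProbabilityTheory Filter
open scoped BigOperators Topology

namespace Vale.Agent.P166.Haar2.Upper

open Vale.Agent.P157 (gam)
open Vale.Agent.P157.Parisi (Cube scale)
open Vale.Agent.P157.Parisi.Full (cubePts slotW slotX slotLaw tailSum)
open Vale.Agent.P168 (cascFilter genNested)
open Vale.Agent.P168.Cascade (Exps)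
open Vale.Agent.P168.Limit (logZ gav rav gw)
open Vale.Agent.P168.Upper (cascFilter_neBot)
open Vale.Agent.P157.Parisi.Up (svar)

variable {N K T r L : ℕ} {w : Fin N → Fin (K + 1)} {δ a : ℝ} {m : Fin r → ℝ} {s : ℝ}

/-- The free energy with slots in the atoms and strengths. -/
abbrev sfree (w : Fin N → Fin (K + 1)) (δ a : ℝ) (m : Fin r → ℝ) (ks : Fin T → Fin (r + 1))
    (s : ℝ) (b : Fin (K + 1) → ℝ) (x : Fin L → ℝ) : ℝ :=
  (stdSys b w).slotFree s x δ a m ks

theorem lim_sfree (hTr : SlotTruncStmt) (hN : 0 < N) (hm : Exps m) (hδ : 0 ≤ δ) (ha : 0 ≤ a)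
    (ks : Fin T → Fin (r + 1)) (b : Fin (K + 1) → ℝ) (x : Fin L → ℝ) :
    Tendsto (fun n => (stdSys b w).free s x (slotBase N δ a m ks n)) (cascFilter r)
      (𝓝 (sfree w δ a m ks s b x)) :=
  (hTr (K + 2) N L T r (stdSys b w) hN m hm δ a hδ ha s x ks).1

theorem sfree_atom_mono (hTr : SlotTruncStmt) (hN : 0 < N) (hm : Exps m) (hδ : 0 ≤ δ) (ha : 0 ≤ a)
    (ks : Fin T → Fin (r + 1)) {b b' : Fin (K + 1) → ℝ} (hle : ∀ k, b k ≤ b' k) (x : Fin L → ℝ) :
    sfree w δ a m ks s b x ≤ sfree w δ a m ks s b' x := by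
  have := cascFilter_neBot r
  exact le_of_tendsto_of_tendsto' (lim_sfree hTr hN hm hδ ha ks b x)
    (lim_sfree hTr hN hm hδ ha ks b' x) fun n => free_atom_mono hN hle w s x _

theorem sfree_atom_lip (hTr : SlotTruncStmt) (hN : 0 < N) (hm : Exps m) (hδ : 0 ≤ δ) (ha : 0 ≤ a)
    (ks : Fin T → Fin (r + 1)) (b b' : Fin (K + 1) → ℝ) (x : Fin L → ℝ) :
    |sfree w δ a m ks s b' x - sfree w δ a m ks s b x| ≤ (N : ℝ) / 2 * ∑ k, |b' k - b k| := by
  have := cascFilter_neBot r
  exact le_of_tendsto' ((lim_sfree hTr hN hm hδ ha ks b' x).sub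
    (lim_sfree hTr hN hm hδ ha ks b x)).abs fun n => free_atom_lip hN b b' w s x _

theorem sfree_pert (hTr : SlotTruncStmt) (hSh : PertShapeStmt) (hN : 0 < N) (hm : Exps m)
    (hδ : 0 ≤ δ) (ha : 0 ≤ a) (ks : Fin T → Fin (r + 1)) (b : Fin (K + 1) → ℝ) :
    (∀ x : Fin L → ℝ, sfree w δ a m ks s b (fun _ : Fin L => 0) ≤ sfree w δ a m ks s b x ∧
      sfree w δ a m ks s b x ≤ sfree w δ a m ks s b (fun _ : Fin L => 0) +
        s ^ 2 / 2 * ∑ i : Fin L, (coef (K + 2) i.val * x i) ^ 2) ∧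
    ∀ x x' : Fin L → ℝ, (∀ i, |x i| ≤ |x' i|) →
      sfree w δ a m ks s b x ≤ sfree w δ a m ks s b x' ∧
        sfree w δ a m ks s b x' ≤ sfree w δ a m ks s b x +
          s ^ 2 / 2 * ∑ i : Fin L, coef (K + 2) i.val ^ 2 * (x' i ^ 2 - x i ^ 2) := by
  have := cascFilter_neBot r
  have lim := fun x : Fin L → ℝ => lim_sfree (w := w) (s := s) hTr hN hm hδ ha ks b x
  have h := fun n => hSh (K + 2) N L (stdSys b w) hN (le_refl _) s (slotBase N δ a m ks n)
  exact ⟨fun x => ⟨le_of_tendsto_of_tendsto' (lim _) (lim _) fun n => ((h n).1 x).1,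
    le_of_tendsto_of_tendsto' (lim _) ((lim _).add_const _) fun n => ((h n).1 x).2⟩,
    fun x x' hx => ⟨le_of_tendsto_of_tendsto' (lim _) (lim _) fun n => ((h n).2 x x' hx).1,
      le_of_tendsto_of_tendsto' (lim _) ((lim _).add_const _) fun n => ((h n).2 x x' hx).2⟩⟩

theorem logZ_toConf (H : Cube N → ℝ) (B : ℝ) :
    Real.log ((∑ σ, Real.exp (H (ofConf σ) + 0)) / (cubePts N).K) + B =
      logZ (fun σ => -(N * Real.log 2) + H σ) + B := by
  have hK : ((cubePts N).K : ℝ) = 2 ^ N := by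
    show (Fintype.card (Cube N) : ℝ) = 2 ^ N
    simp
  have e : ∑ σ : Vale.Agent.P157.Parisi.Sphere.Conf (cubePts N), Real.exp (H (ofConf σ) + 0) =
      ∑ σ : Cube N, Real.exp (H σ) := by
    simp only [add_zero]
    exact (Fintype.equivFin (Cube N)).symm.sum_comp (fun σ => Real.exp (H σ))
  rw [e, hK, logZ]
  simp only [Real.exp_add, ← Finset.mul_sum]
  rw [Real.log_mul (Real.exp_pos _).ne' (sum_exp_pos H).ne', Real.log_exp,
    Real.log_div (sum_exp_pos H).ne' (by positivity), Real.log_pow]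
  ring

/-- Without slots the limit is the free energy over the uniform base. -/
theorem sfree_empty (hm : Exps m) (b : Fin (K + 1) → ℝ) (x : Fin L → ℝ) (ks : Fin 0 → Fin (r + 1)) :
    sfree w δ a m ks s b x = (stdSys b w).free s x (unifBase N) := by
  set P := stdSys b w
  have hPhi : ∀ (U : OG N) (J : PIdx (K + 2) N L → ℝ) (E : Fin 0 → Fin N → ℝ),
      Vale.Agent.P157.Parisi.Sphere.Up.Phi (slotLaw 0 N) m
        (slotW δ a ks (fun σ => P.ham0 s x U J (ofConf σ)) E) =
        logZ (fun σ => -(N * Real.log 2) + P.ham0 s x U J σ) := by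
    intro U J E
    set c := (∑ σ : Vale.Agent.P157.Parisi.Sphere.Conf (cubePts N),
      Real.exp (P.ham0 s x U J (ofConf σ) + 0)) / (cubePts N).K with hc
    have hc0 : 0 < c := div_pos (Finset.sum_pos (fun _ _ => Real.exp_pos _) Finset.univ_nonempty)
      (Nat.cast_pos.2 (cubePts N).pos)
    have hsum : (fun η : Fin r → Fin 0 → Fin N → ℝ =>
        ∑ σ, slotW δ a ks (fun σ => P.ham0 s x U J (ofConf σ)) E σ η) = fun _ => c := by
      funext η
      simp [slotW, slotX, hc, Finset.sum_div]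
    rw [Vale.Agent.P157.Parisi.Sphere.Up.Phi, hsum]
    obtain ⟨h1, h2⟩ := Vale.Agent.P168.Upper.genNested_bounds (slotLaw 0 N) m hm.pos
      (fun _ => c) measurable_const (hi := c) hc0 fun _ => ⟨le_rfl, le_rfl⟩
    rw [le_antisymm h2 h1]
    simpa [hc] using logZ_toConf (fun σ => P.ham0 s x U J σ) 0
  unfold sfree Sys.slotFree
  simp only [P] at hPhi
  simp only [hPhi, integral_const, probReal_univ, one_smul]
  have hi := integrable_logZ P s x (unifBase N)
  unfold Sys.free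
  rw [dzLaw] at hi ⊢
  rw [integral_prod _ hi]
  refine integral_congr_ae ?_
  filter_upwards [hi.prod_right_ae] with U hU
  rw [integral_prod _ hU]
  refine integral_congr_ae (Eventually.of_forall fun J => ?_)
  show _ = ∫ u, logZ (P.ham s x (unifBase N) (U, J, u)) ∂(Measure.dirac () : Measure Unit)
  exact (integral_dirac (fun u : Unit => logZ (P.ham s x (unifBase N) (U, J, u))) ()).symm

/-- Without atoms and perturbation the slots are those of the empty potential on the cube. -/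
theorem sfree_zero (ks : Fin T → Fin (r + 1)) :
    sfree w δ a m ks s (fun _ : Fin (K + 1) => 0) (fun _ : Fin L => 0) =
      Vale.Agent.P157.Parisi.Full.slotFree (cubePts N) (fun _ => 0) δ a m ks 0
        (fun _ : Fin N => 0) 0 := by
  have h1 : ∀ (U : OG N) (J : PIdx (K + 2) N L → ℝ),
      (fun σ => (stdSys (fun _ : Fin (K + 1) => (0 : ℝ)) w).ham0 s (fun _ : Fin L => 0) U J
        (ofConf σ)) = fun _ => (0 : ℝ) := fun U J => funext fun σ => by
    simp [Sys.ham0, Sys.pert, stdSys]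
  have h2 : ∀ d : Vale.Agent.P157.Parisi.Dis N N,
      Vale.Agent.P157.Parisi.Sphere.totalH (P := cubePts N) (fun _ => (0 : ℝ)) 0
        (fun _ : Fin N => (0 : ℝ)) d = fun _ => 0 := fun d => funext fun σ => by
    simp [Vale.Agent.P157.Parisi.Sphere.totalH, Vale.Agent.P157.Parisi.Sphere.pertH]
  unfold sfree Sys.slotFree Vale.Agent.P157.Parisi.Full.slotFree
  simp only [h1, h2, integral_const, probReal_univ, one_smul]

/-! ### The objective -/

/-- The atoms at time `t` with their shifts. -/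
def atomsAt (A : Atoms K) (t : ℝ) (N : ℕ) (y : Fin (K + 1) → ℝ) : Fin (K + 1) → ℝ :=
  shifted (fun k => t * A.a k) N y

/-- The objective. -/
def obj (A : Atoms K) (w : Fin N → Fin (K + 1)) (δ a η : ℝ) (m : Fin r → ℝ) (q : Fin (r + 1) → ℝ)
    (t : ℝ) (ks : Fin T → Fin (r + 1)) (x : Fin N → ℝ) (y : Fin (K + 1) → ℝ) : ℝ :=
  sfree w δ a m ks (scale N) (atomsAt A t N y) x +
    svar a * δ / 2 * (N * ∑ u, (tailSum m q (ks u) - 1)) -
    N * η * (svar a * δ * T) ^ 2 - pen N x y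

/-- A nearly maximal point over at most `Tm` slots and the box. -/
def IsNear (A : Atoms K) (w : Fin N → Fin (K + 1)) (δ a η : ℝ) (m : Fin r → ℝ)
    (q : Fin (r + 1) → ℝ) (t : ℝ) (Tm : ℕ) (ks : Fin T → Fin (r + 1)) (x : Fin N → ℝ)
    (y : Fin (K + 1) → ℝ) : Prop :=
  (T ≤ Tm ∧ (∀ i, x i ∈ Set.Icc (0 : ℝ) 3) ∧ ∀ k, y k ∈ Set.Icc (0 : ℝ) 3) ∧
    ∀ (T' : ℕ) (ks' : Fin T' → Fin (r + 1)) (x' : Fin N → ℝ) (y' : Fin (K + 1) → ℝ), T' ≤ Tm →
      (∀ i, x' i ∈ Set.Icc (0 : ℝ) 3) → (∀ k, y' k ∈ Set.Icc (0 : ℝ) 3) →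
      obj A w δ a η m q t ks' x' y' ≤ obj A w δ a η m q t ks x y + tol K N

theorem coef_facts (G i : ℕ) : 0 < coef G i ∧ coef G i ≤ (1 / 2 : ℝ) ^ (i + 1) ∧ coef G i ≤ 1 := by
  have h1 : (1 : ℝ) ≤ 1 + (∑ g, mexp G i g : ℕ) := le_add_of_nonneg_right (Nat.cast_nonneg _)
  have h2 : coef G i ≤ (1 / 2 : ℝ) ^ (i + 1) := div_le_self (by positivity) h1
  exact ⟨div_pos (by positivity) (by linarith), h2,
    h2.trans (pow_le_one₀ (by norm_num) (by norm_num))⟩

theorem eta_nonneg (N : ℕ) : 0 ≤ eta N := Real.rpow_nonneg (Nat.cast_nonneg N) _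

theorem sum_coef_sq (G L : ℕ) : ∑ i : Fin L, coef G i.val ^ 2 ≤ 1 / 3 := by
  calc ∑ i : Fin L, coef G i.val ^ 2 ≤ ∑ i : Fin L, (1 / 4 : ℝ) ^ (i.val + 1) :=
        Finset.sum_le_sum fun i _ => (pow_le_pow_left₀ (coef_facts G i.val).1.le
          (coef_facts G i.val).2.1 2).trans (le_of_eq (by rw [← pow_mul, mul_comm, pow_mul]; norm_num))
    _ = ∑ i ∈ Finset.range L, (1 / 4 : ℝ) ^ (i + 1) :=
        Fin.sum_univ_eq_sum_range (fun i => (1 / 4 : ℝ) ^ (i + 1)) L
    _ ≤ 1 / 3 := by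
        have : ∀ n : ℕ, ∑ i ∈ Finset.range n, (1 / 4 : ℝ) ^ (i + 1) = 1 / 3 - 1 / 3 * (1 / 4) ^ n := by
          intro n
          induction n with
          | zero => simp
          | succ n ih => rw [Finset.sum_range_succ, ih]; ring
        rw [this L]
        linarith [pow_pos (show (0 : ℝ) < 1 / 4 by norm_num) L]

theorem tol_pos (hN : 0 < N) (K : ℕ) : 0 < tol K N := by
  have hs : 0 < scale N := Real.rpow_pos_of_pos (Nat.cast_pos.2 hN) _
  exact div_pos (lt_min one_pos (mul_pos (pow_pos hs 2)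
    (Finset.prod_pos fun i _ => pow_pos (coef_facts _ i).1 2))) (by positivity)

theorem tol_le (K : ℕ) : tol K N ≤ 1 / (1 + (N : ℝ) ^ 8) ∧ tol K N ≤ 1 ∧
    ∀ i : Fin N, tol K N ≤ scale N ^ 2 * coef (K + 2) i.val ^ 2 := by
  have hd : (1 : ℝ) ≤ 1 + (N : ℝ) ^ 8 := le_add_of_nonneg_right (by positivity)
  have hnum : 0 ≤ min 1 (scale N ^ 2 * ∏ i ∈ Finset.range N, coef (K + 2) i ^ 2) :=
    le_min zero_le_one (mul_nonneg (sq_nonneg _) (Finset.prod_nonneg fun i _ => sq_nonneg _))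
  refine ⟨div_le_div_of_nonneg_right (min_le_left _ _) (by linarith),
    (div_le_self hnum hd).trans (min_le_left _ _), fun i => ?_⟩
  refine ((div_le_self hnum hd).trans (min_le_right _ _)).trans
    (mul_le_mul_of_nonneg_left ?_ (sq_nonneg _))
  rw [← Finset.mul_prod_erase (Finset.range N) (fun i => coef (K + 2) i ^ 2)
    (Finset.mem_range.2 i.2)]
  refine mul_le_of_le_one_right (sq_nonneg _) (Finset.prod_le_one (fun j _ => sq_nonneg _)
    fun j _ => pow_le_one₀ (coef_facts _ j).1.le (coef_facts _ j).2.2)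

theorem pen_nonneg (x : Fin L → ℝ) (y : Fin (K + 1) → ℝ) : 0 ≤ pen N x y := by
  have := eta_nonneg N
  refine add_nonneg (mul_nonneg (by positivity) (Finset.sum_nonneg fun i _ => by positivity))
    (mul_nonneg (by positivity) (Finset.sum_nonneg fun k _ => sq_nonneg _))

theorem pen_center : pen N (fun _ : Fin L => (3 / 2 : ℝ)) (fun _ : Fin (K + 1) => 3 / 2) = 0 := by
  simp [pen]

/-- A point is nearly maximal. -/
theorem exists_near (hTr : SlotTruncStmt) (hSh : PertShapeStmt) (hN : 0 < N) (hm : Exps m)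
    (hδ : 0 ≤ δ) (ha : 0 ≤ a) (A : Atoms K) (η : ℝ) (q : Fin (r + 1) → ℝ) (t : ℝ) (Tm : ℕ) :
    ∃ (T : ℕ) (ks : Fin T → Fin (r + 1)) (x : Fin N → ℝ) (y : Fin (K + 1) → ℝ),
      IsNear A w δ a η m q t Tm ks x y := by
  set Idx := Σ T : Fin (Tm + 1), Fin T.val → Fin (r + 1)
  set S : Set ℝ := {v | ∃ (i : Idx) (x : Fin N → ℝ) (y : Fin (K + 1) → ℝ),
    (∀ p, x p ∈ Set.Icc (0 : ℝ) 3) ∧ (∀ k, y k ∈ Set.Icc (0 : ℝ) 3) ∧
      v = obj A w δ a η m q t i.2 x y}
  have hne : S.Nonempty := ⟨_, ⟨⟨0, Nat.succ_pos _⟩, fun u => u.elim0⟩, fun _ => 0, fun _ => 0,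
    fun _ => ⟨le_rfl, by norm_num⟩, fun _ => ⟨le_rfl, by norm_num⟩, rfl⟩
  set U : Idx → ℝ := fun i =>
    sfree w δ a m i.2 (scale N) (atomsAt A t N fun _ => 3) (fun _ : Fin N => 3) +
      svar a * δ / 2 * (N * ∑ u, (tailSum m q (i.2 u) - 1)) - N * η * (svar a * δ * i.1.val) ^ 2
  have hb : BddAbove S := by
    refine ⟨∑ i, |U i|, ?_⟩
    rintro v ⟨i, x, y, hx, hy, rfl⟩
    refine le_trans ?_ ((le_abs_self (U i)).trans
      (Finset.single_le_sum (f := fun i => |U i|) (fun i _ => abs_nonneg _) (Finset.mem_univ i)))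
    have h1 := sfree_atom_mono (w := w) (s := scale N) hTr hN hm hδ ha i.2
      (b := atomsAt A t N y) (b' := atomsAt A t N fun _ => 3)
      (fun k => add_le_add le_rfl (mul_le_mul_of_nonneg_left (hy k).2 (eta_nonneg N))) x
    have h2 := ((sfree_pert (w := w) (s := scale N) hTr hSh hN hm hδ ha i.2
      (atomsAt A t N fun _ => 3)).2 x (fun _ => 3) fun p => by
        rw [abs_of_nonneg (hx p).1, abs_of_nonneg (by norm_num : (0 : ℝ) ≤ 3)]; exact (hx p).2).1
    have h3 := pen_nonneg (N := N) x y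
    simp only [obj, U]
    linarith
  obtain ⟨v, ⟨i, x, y, hx, hy, rfl⟩, hv⟩ :=
    exists_lt_of_lt_csSup hne (sub_lt_self (sSup S) (tol_pos hN K))
  refine ⟨i.1.val, i.2, x, y, ⟨Nat.le_of_lt_succ i.1.isLt, hx, hy⟩,
    fun T' ks' x' y' hT' hx' hy' => ?_⟩
  have := le_csSup hb (show obj A w δ a η m q t ks' x' y' ∈ S from
    ⟨⟨⟨T', Nat.lt_succ_of_le hT'⟩, ks'⟩, x', y', hx', hy', rfl⟩)
  linarith

variable {A : Atoms K} {η t : ℝ} {q : Fin (r + 1) → ℝ} {Tm : ℕ} {ks : Fin T → Fin (r + 1)}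
  {x : Fin N → ℝ} {y : Fin (K + 1) → ℝ}

theorem pen_update_x (x : Fin N → ℝ) (y : Fin (K + 1) → ℝ) (p : Fin N) (u : ℝ) :
    pen N (Function.update x p u) y = pen N x y +
      100 * scale N ^ 2 * (coef (K + 2) p.val ^ 2 * ((u - 3 / 2) ^ 2 - (x p - 3 / 2) ^ 2)) := by
  classical
  have e : ∑ i : Fin N, coef (K + 2) i.val ^ 2 * (Function.update x p u i - 3 / 2) ^ 2 -
      ∑ i : Fin N, coef (K + 2) i.val ^ 2 * (x i - 3 / 2) ^ 2 =
      coef (K + 2) p.val ^ 2 * ((u - 3 / 2) ^ 2 - (x p - 3 / 2) ^ 2) := by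
    rw [← Finset.sum_sub_distrib, Finset.sum_eq_single p]
    · rw [Function.update_self]; ring
    · intro i _ hi; rw [Function.update_of_ne hi]; ring
    · simp
  simp only [pen]
  linear_combination 100 * scale N ^ 2 * e

theorem pen_update_y (x : Fin N → ℝ) (y : Fin (K + 1) → ℝ) (k : Fin (K + 1)) (u : ℝ) :
    pen N x (Function.update y k u) = pen N x y +
      100 * (eta N * N) * ((u - 3 / 2) ^ 2 - (y k - 3 / 2) ^ 2) := by
  classical
  have e : ∑ i, (Function.update y k u i - 3 / 2) ^ 2 - ∑ i, (y i - 3 / 2) ^ 2 =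
      (u - 3 / 2) ^ 2 - (y k - 3 / 2) ^ 2 := by
    rw [← Finset.sum_sub_distrib, Finset.sum_eq_single k]
    · rw [Function.update_self]
    · intro i _ hi; rw [Function.update_of_ne hi]; ring
    · simp
  simp only [pen]
  linear_combination 100 * (eta N * (N : ℝ)) * e

theorem update_mem {n : ℕ} {z : Fin n → ℝ} (hz : ∀ i, z i ∈ Set.Icc (0 : ℝ) 3) (p : Fin n) {u : ℝ}
    (hu : u ∈ Set.Icc (0 : ℝ) 3) (i : Fin n) : Function.update z p u i ∈ Set.Icc (0 : ℝ) 3 := by
  rcases eq_or_ne i p with rfl | hi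
  · rwa [Function.update_self]
  · rw [Function.update_of_ne hi]; exact hz i

/-- The strengths of a nearly maximal point lie in `[1, 2]`. -/
theorem IsNear.coord_x (h : IsNear A w δ a η m q t Tm ks x y) (hTr : SlotTruncStmt)
    (hSh : PertShapeStmt) (hN : 0 < N) (hm : Exps m) (hδ : 0 ≤ δ) (ha : 0 ≤ a) (p : Fin N) :
    x p ∈ Set.Icc (1 : ℝ) 2 := by
  obtain ⟨hT, hx, hy⟩ := h.1
  have key := h.2 T ks (Function.update x p (3 / 2)) y hT
    (update_mem hx p ⟨by norm_num, by norm_num⟩) hy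
  simp only [obj, pen_update_x] at key
  set s := scale N
  set c := coef (K + 2) p.val with hc
  have hc0 : 0 < s ^ 2 * c ^ 2 :=
    mul_pos (pow_pos (Real.rpow_pos_of_pos (Nat.cast_pos.2 hN) _) 2) (pow_pos (coef_facts _ _).1 2)
  have htol : tol K N ≤ s ^ 2 * c ^ 2 := (tol_le K).2.2 p
  have hps := (sfree_pert (w := w) (s := s) (L := N) hTr hSh hN hm hδ ha ks (atomsAt A t N y)).2
  obtain ⟨h0, h3⟩ := hx p
  refine ⟨?_, ?_⟩
  · by_contra hlt
    have h4 := (hps x (Function.update x p (3 / 2)) fun i => by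
      rcases eq_or_ne i p with rfl | hi
      · rw [Function.update_self, abs_of_nonneg h0, abs_of_nonneg (by norm_num : (0 : ℝ) ≤ 3 / 2)]
        linarith
      · rw [Function.update_of_ne hi]).1
    have h5 : (1 / 4 : ℝ) ≤ (x p - 3 / 2) ^ 2 := by nlinarith
    nlinarith [mul_le_mul_of_nonneg_left h5 hc0.le]
  · by_contra hlt
    have h4 := (hps (Function.update x p (3 / 2)) x fun i => by
      rcases eq_or_ne i p with rfl | hi
      · rw [Function.update_self, abs_of_nonneg h0, abs_of_nonneg (by norm_num : (0 : ℝ) ≤ 3 / 2)]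
        linarith
      · rw [Function.update_of_ne hi]).2
    have e : ∑ i : Fin N, coef (K + 2) i.val ^ 2 * (x i ^ 2 - Function.update x p (3 / 2) i ^ 2) =
        c ^ 2 * (x p ^ 2 - (3 / 2) ^ 2) := by
      rw [Finset.sum_eq_single p]
      · rw [Function.update_self, hc]
      · intro i _ hi; rw [Function.update_of_ne hi]; ring
      · simp
    rw [e] at h4
    have h5 : (1 / 4 : ℝ) ≤ (x p - 3 / 2) ^ 2 := by nlinarith
    have h7 : x p ^ 2 ≤ 9 := by nlinarith
    nlinarith [mul_le_mul_of_nonneg_left h5 hc0.le, mul_le_mul_of_nonneg_left h7 hc0.le]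

/-- The shifts of a nearly maximal point lie in `[1, 2]`. -/
theorem IsNear.coord_y (h : IsNear A w δ a η m q t Tm ks x y) (hTr : SlotTruncStmt)
    (hN : 0 < N) (hm : Exps m) (hδ : 0 ≤ δ) (ha : 0 ≤ a) (htol : tol K N ≤ eta N * N)
    (k : Fin (K + 1)) : y k ∈ Set.Icc (1 : ℝ) 2 := by
  classical
  obtain ⟨hT, hx, hy⟩ := h.1
  have key := h.2 T ks x (Function.update y k (3 / 2)) hT hx
    (update_mem hy k ⟨by norm_num, by norm_num⟩)
  simp only [obj, pen_update_y] at key
  set e := eta N * (N : ℝ)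
  have he : 0 < e := mul_pos (Real.rpow_pos_of_pos (Nat.cast_pos.2 hN) _) (Nat.cast_pos.2 hN)
  obtain ⟨h0, h3⟩ := hy k
  refine ⟨?_, ?_⟩
  · by_contra hlt
    have h4 := sfree_atom_mono (w := w) (s := scale N) hTr hN hm hδ ha ks
      (b := atomsAt A t N y) (b' := atomsAt A t N (Function.update y k (3 / 2))) (fun i => by
        refine add_le_add le_rfl (mul_le_mul_of_nonneg_left ?_ (eta_nonneg N))
        rcases eq_or_ne i k with rfl | hi
        · rw [Function.update_self]; linarith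
        · rw [Function.update_of_ne hi]) x
    have h5 : (1 / 4 : ℝ) ≤ (y k - 3 / 2) ^ 2 := by nlinarith
    nlinarith [mul_le_mul_of_nonneg_left h5 he.le]
  · by_contra hlt
    have h4 := (abs_le.1 (sfree_atom_lip (w := w) (s := scale N) hTr hN hm hδ ha ks
      (atomsAt A t N y) (atomsAt A t N (Function.update y k (3 / 2))) x)).1
    have e1 : ∑ i, |atomsAt A t N (Function.update y k (3 / 2)) i - atomsAt A t N y i| =
        eta N * (y k - 3 / 2) := by
      rw [Finset.sum_eq_single k]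
      · simp only [atomsAt, shifted, Function.update_self]
        rw [show t * A.a k + eta N * (3 / 2) - (t * A.a k + eta N * y k) =
          -(eta N * (y k - 3 / 2)) by ring, abs_neg,
          abs_of_nonneg (mul_nonneg (eta_nonneg N) (by linarith))]
      · intro i _ hi; simp [atomsAt, shifted, Function.update_of_ne hi]
      · simp
    rw [e1] at h4
    have h5 : (1 / 4 : ℝ) ≤ (y k - 3 / 2) ^ 2 := by nlinarith
    have h6 : e * (y k - 3 / 2) ≤ e * 2 := mul_le_mul_of_nonneg_left (by linarith) he.le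
    have e2 : (N : ℝ) / 2 * (eta N * (y k - 3 / 2)) = e * (y k - 3 / 2) / 2 := by
      simp only [e]; ring
    nlinarith [mul_le_mul_of_nonneg_left h5 he.le]

/-- The cap in one strength. -/
theorem IsNear.cap_x (h : IsNear A w δ a η m q t Tm ks x y) (hTr : SlotTruncStmt)
    (hSh : PertShapeStmt) (hN : 0 < N) (hm : Exps m) (hδ : 0 ≤ δ) (ha : 0 ≤ a) {u : ℝ}
    (hu : |u| ≤ 1) (p : Fin N) :
    sfree w δ a m ks (scale N) (atomsAt A t N y) (Function.update x p (x p + u)) +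
        sfree w δ a m ks (scale N) (atomsAt A t N y) (Function.update x p (x p - u)) -
        2 * sfree w δ a m ks (scale N) (atomsAt A t N y) x ≤
      200 * scale N ^ 2 * u ^ 2 + 2 := by
  obtain ⟨hT, hx, hy⟩ := h.1
  obtain ⟨h1, h2⟩ := h.coord_x hTr hSh hN hm hδ ha p
  obtain ⟨hu1, hu2⟩ := abs_le.1 hu
  have k1 := h.2 T ks (Function.update x p (x p + u)) y hT
    (update_mem hx p ⟨by linarith, by linarith⟩) hy
  have k2 := h.2 T ks (Function.update x p (x p - u)) y hT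
    (update_mem hx p ⟨by linarith, by linarith⟩) hy
  simp only [obj, pen_update_x] at k1 k2
  have hc := mul_le_mul_of_nonneg_left (mul_le_mul_of_nonneg_right
    (pow_le_one₀ (coef_facts (K + 2) p.val).1.le (coef_facts (K + 2) p.val).2.2 (n := 2))
    (sq_nonneg u)) (sq_nonneg (scale N))
  have ht := (tol_le (N := N) K).2.1
  nlinarith [k1, k2]

/-- The cap in one shift. -/
theorem IsNear.cap_y (h : IsNear A w δ a η m q t Tm ks x y) (hTr : SlotTruncStmt)
    (hN : 0 < N) (hm : Exps m) (hδ : 0 ≤ δ) (ha : 0 ≤ a) (htol : tol K N ≤ eta N * N) {u : ℝ}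
    (hu : |u| ≤ 1) (k : Fin (K + 1)) :
    sfree w δ a m ks (scale N) (atomsAt A t N (Function.update y k (y k + u))) x +
        sfree w δ a m ks (scale N) (atomsAt A t N (Function.update y k (y k - u))) x -
        2 * sfree w δ a m ks (scale N) (atomsAt A t N y) x ≤
      200 * (eta N * N) * u ^ 2 + 2 := by
  obtain ⟨hT, hx, hy⟩ := h.1
  obtain ⟨h1, h2⟩ := h.coord_y hTr hN hm hδ ha htol k
  obtain ⟨hu1, hu2⟩ := abs_le.1 hu
  have k1 := h.2 T ks x (Function.update y k (y k + u)) hT hx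
    (update_mem hy k ⟨by linarith, by linarith⟩)
  have k2 := h.2 T ks x (Function.update y k (y k - u)) hT hx
    (update_mem hy k ⟨by linarith, by linarith⟩)
  simp only [obj, pen_update_y] at k1 k2
  have ht := (tol_le (N := N) K).2.1
  nlinarith [k1, k2]

/-- The overlap on the levels is above the tails of `q` at a nearly maximal point. -/
theorem IsNear.tail_le (h : IsNear A w δ a η m q t Tm ks x y) (hS : SlotStepStmt) (hT : T < Tm)
    (hN : 0 < N) (hm : Exps m) (hδ : 0 < δ) (ha : 0 ≤ a) (hv : 0 < svar a)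
    (hM : Real.sqrt δ * (N * a) ≤ 1 / 10) (k : Fin (r + 1)) :
    tailSum m q k ≤
      (stdSys (atomsAt A t N y) w).slotOverlap (scale N) x δ a m ks k +
        2 * η * (svar a * δ * (2 * T + 1)) +
        (40 * (Real.sqrt δ * (N * a)) ^ 3 + 2 * tol K N) / (svar a * δ * N) := by
  obtain ⟨-, hx, hy⟩ := h.1
  have h1 := h.2 (T + 1) (Fin.cons k ks) x y hT hx hy
  have h2 := hS (K + 2) N N T r (stdSys (atomsAt A t N y) w) hN m hm δ a hδ.le ha hM (scale N) x ks k
  have hNR : (0 : ℝ) < N := Nat.cast_pos.2 hN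
  set d := svar a * δ with hd
  have hd0 : 0 < d := mul_pos hv hδ
  set B := (stdSys (atomsAt A t N y) w).slotOverlap (scale N) x δ a m ks k
  set M3 := (Real.sqrt δ * (N * a)) ^ 3
  simp only [obj, sfree, Fin.sum_univ_succ, Fin.cons_zero, Fin.cons_succ, ← hd] at h1
  push_cast at h1
  have key : d * N / 2 * (tailSum m q k - B) ≤
      d * N / 2 * (2 * η * (d * (2 * T + 1))) + (20 * M3 + tol K N) := by nlinarith [h1, h2]
  have h3 : tailSum m q k - B ≤
      2 * η * (d * (2 * T + 1)) + (40 * M3 + 2 * tol K N) / (d * N) := by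
    refine le_of_mul_le_mul_left ?_ (by positivity : 0 < d * N / 2)
    refine key.trans (le_of_eq ?_)
    field_simp
    ring
  linarith

end Vale.Agent.P166.Haar2.Upper
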